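import Vale.Agent.P181.H605.Row2
import Vale.Agent.P181.H788.Prog

set_option autoImplicit false

/-!
# P181: soundness of the recursion of the kernel program
-/

namespace Vale.Agent.P181.H605

open Finset Vale.Agent.P181.H788

lemma sm_eq (f : ℕ → ℕ) (n : ℕ) : sm f n = ∑ i ∈ range n, f i := by
  induction n with
  | zero => rfl
  | succ n ih =>
    rw [Finset.sum_range_succ, ← ih]
    rfl

lemma fc_eq (n : ℕ) (k : ℕ → ℕ) : fc n k = k n := by
  cases n <;> rfl

lemma bt_eq (b : Bool) (t e : ℕ) : bt b t e = if b = true then t else e := by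
  cases b <;> rfl

lemma bt_ble (a b t e : ℕ) : bt (Nat.ble a b) t e = if a ≤ b then t else e := by
  rw [bt_eq]
  exact if_congr (iff_of_eq Nat.ble_eq) rfl rfl

lemma mn_eq (a b : ℕ) : mn a b = min a b := by
  rw [mn, bt_ble]
  rfl

/-- the ring of the residues -/
abbrev Z (K : ℕ) : Type := ZMod (2 ^ K)

lemma cast_mod (K m : ℕ) : ((Nat.mod m (Nat.pow 2 K) : ℕ) : Z K) = (m : Z K) := by
  change ((m % 2 ^ K : ℕ) : Z K) = _
  rw [ZMod.natCast_mod]

lemma cast_two_pow (K : ℕ) : ((2 ^ K : ℕ) : Z K) = 0 := ZMod.natCast_self _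

lemma hv_cast (w S K k r : ℕ) : ((hv w S K k r : ℕ) : Z K) = ((hZ w S k r : ℤ) : Z K) := by
  rw [hv, cast_mod, sm_eq, hZ]
  push_cast
  refine Finset.sum_congr rfl fun i _ => ?_
  rw [sm_eq]
  push_cast
  refine Finset.sum_congr rfl fun j _ => ?_
  change (((2 ^ (w * (k * (i + S * j))) : ℕ)) : Z K) = _
  push_cast
  rfl

/-- `F` is a table of residues of the antisymmetric function `g`. -/
def Tab (K : ℕ) (F : Tb) (g : ℕ → ℕ → ℕ → ℤ) : Prop :=
  ∀ x y z, z < y → y < x → ((F x y z : ℕ) : Z K) = ((g x y z : ℤ) : Z K) ∧ F x y z ≤ 2 ^ K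

/-- antisymmetric functions -/
structure Anti (g : ℕ → ℕ → ℕ → ℤ) : Prop where
  s1 : ∀ x y z, g y x z = - g x y z
  s2 : ∀ x y z, g x z y = - g x y z

namespace Anti

variable {g : ℕ → ℕ → ℕ → ℤ} (h : Anti g)
include h

lemma e1 (x z : ℕ) : g x x z = 0 := by
  have := h.s1 x x z
  omega

lemma e2 (x y : ℕ) : g x y y = 0 := by
  have := h.s2 x y y
  omega

lemma e3 (x y : ℕ) : g x y x = 0 := by
  rw [h.s2, h.e1, neg_zero]

end Anti

lemma cast_sub' {K m : ℕ} (h : m ≤ 2 ^ K) : ((2 ^ K - m : ℕ) : Z K) = - (m : Z K) := by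
  rw [Nat.cast_sub h, cast_two_pow, zero_sub]

/-- lookup at an unsorted place -/
lemma sg_cast {K : ℕ} {F : Tb} {g : ℕ → ℕ → ℕ → ℤ} (hF : Tab K F g) (hg : Anti g) (x y z : ℕ) :
    ((sg K F x y z : ℕ) : Z K) = ((g x y z : ℤ) : Z K) := by
  unfold sg
  simp only [bt_ble, Nat.succ_le_iff]
  rcases lt_trichotomy x y with hxy | rfl | hxy
  · -- x < y
    rw [if_neg (not_lt.2 hxy.le), if_pos hxy]
    rcases lt_trichotomy z x with hzx | rfl | hzx
    · -- z < x < y
      rw [if_pos hzx]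
      obtain ⟨h1, h2⟩ := hF y x z hzx hxy
      change ((2 ^ K - F y x z : ℕ) : Z K) = _
      rw [cast_sub' h2, h1, hg.s1 x y z]
      push_cast
      ring
    · -- z = x
      rw [if_neg (lt_irrefl _), if_neg (lt_irrefl _), hg.e3]
      push_cast
      rfl
    · -- x < z
      rw [if_neg (not_lt.2 hzx.le), if_pos hzx]
      rcases lt_trichotomy z y with hzy | rfl | hzy
      · -- x < z < y
        rw [if_pos hzy]
        obtain ⟨h1, h2⟩ := hF y z x hzx hzy
        rw [h1, hg.s2 y x z, hg.s1 x y z, neg_neg]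
      · -- z = y
        rw [if_neg (lt_irrefl _), if_neg (lt_irrefl _), hg.e2]
        push_cast
        rfl
      · -- x < y < z
        rw [if_neg (not_lt.2 hzy.le), if_pos hzy]
        obtain ⟨h1, h2⟩ := hF z y x hxy hzy
        change ((2 ^ K - F z y x : ℕ) : Z K) = _
        rw [cast_sub' h2, h1, hg.s1 y z x, hg.s2 y x z, hg.s1 x y z]
        push_cast
        ring
  · -- x = y
    rw [if_neg (lt_irrefl _), if_neg (lt_irrefl _), hg.e1]
    push_cast
    rfl
  · -- y < x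
    rw [if_pos hxy]
    rcases lt_trichotomy z y with hzy | rfl | hzy
    · rw [if_pos hzy]
      exact (hF x y z hzy hxy).1
    · rw [if_neg (lt_irrefl _), if_neg (lt_irrefl _), hg.e2]
      push_cast
      rfl
    · rw [if_neg (not_lt.2 hzy.le), if_pos hzy]
      rcases lt_trichotomy z x with hzx | rfl | hzx
      · rw [if_pos hzx]
        obtain ⟨h1, h2⟩ := hF x z y hzy hzx
        change ((2 ^ K - F x z y : ℕ) : Z K) = _
        rw [cast_sub' h2, h1, hg.s2 x y z]
        push_cast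
        ring
      · rw [if_neg (lt_irrefl _), if_neg (lt_irrefl _), hg.e3]
        push_cast
        rfl
      · rw [if_neg (not_lt.2 hzx.le), if_pos hzx]
        obtain ⟨h1, h2⟩ := hF z x y hxy hzx
        rw [h1, hg.s1 x z y, hg.s2 x y z, neg_neg]

/-- the contribution of one `k`, over the integers -/
def ctrZ (w S k d : ℕ) (g : ℕ → ℕ → ℕ → ℤ) (x y z : ℕ) : ℤ :=
  ∑ a ∈ range (min (x / k) d + 1), ∑ b ∈ range (min (y / k) (d - a) + 1),
    ∑ c ∈ range (min (z / k) (d - a - b) + 1),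
      hZ w S k (d - a - b - c) * g (x - k * a) (y - k * b) (z - k * c)

/-- the contribution of one `k` -/
lemma ctr_cast {K : ℕ} {F : Tb} {g : ℕ → ℕ → ℕ → ℤ} (hF : Tab K F g) (hg : Anti g)
    (w S k d x y z : ℕ) :
    ((ctr w S K k d F x y z : ℕ) : Z K) = ((ctrZ w S k d g x y z : ℤ) : Z K) := by
  unfold ctr ctrZ
  simp only [sm_eq, fc_eq, mn_eq, Nat.cast_sum, Int.cast_sum]
  refine Finset.sum_congr rfl fun a _ => Finset.sum_congr rfl fun b _ =>
    Finset.sum_congr rfl fun c _ => ?_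
  change ((hv w S K k (d - a - b - c) * sg K F (x - k * a) (y - k * b) (z - k * c) : ℕ) : Z K) = _
  rw [Nat.cast_mul, hv_cast, sg_cast hF hg, Int.cast_mul]

/-! ### The levels -/

lemma G_anti (w S N a : ℕ) : Anti (G w S N a) :=
  ⟨fun x y z => G_swap1 w S N a x y z, fun x y z => G_swap2 w S N a x y z⟩

/-- `N!` times the rows -/
noncomputable def H (w S N a : ℕ) (x y z : ℕ) : ℤ := (N.factorial : ℤ) * G w S N a x y z

lemma H_anti (w S N a : ℕ) : Anti (H w S N a) :=
  ⟨fun x y z => by rw [H, H, G_swap1, mul_neg], fun x y z => by rw [H, H, G_swap2, mul_neg]⟩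

theorem H_rec (w S N a x y z : ℕ) (hN : 0 < N) : H w S N a x y z =
    ∑ k ∈ range N, ((N - 1).descFactorial k : ℤ) *
      ctrZ w S (k + 1) a (H w S (N - (k + 1)) a) x y z :=
  G_rec' w S N a x y z hN

/-- The table `F` holds the residues of `N!` times the rows. -/
def Sound (w S K N a : ℕ) (F : Tb) : Prop :=
  ∀ x y z, z < y → y < x → (F x y z : ℤ) = H w S N a x y z % (2 : ℤ) ^ K

lemma Sound.tab {w S K N a : ℕ} {F : Tb} (h : Sound w S K N a F) : Tab K F (H w S N a) := by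
  intro x y z h1 h2
  have h3 := h x y z h1 h2
  have hpos : (0 : ℤ) < (2 : ℤ) ^ K := by positivity
  constructor
  · have h4 := congrArg (Int.cast : ℤ → Z K) h3
    rw [Int.cast_natCast] at h4
    rw [h4]
    have h5 : ((2 : ℤ) ^ K) = ((2 ^ K : ℕ) : ℤ) := by push_cast; rfl
    rw [h5, ZMod.intCast_mod]
  · have h4 := Int.emod_lt_of_pos (H w S N a x y z) hpos
    rw [← h3] at h4
    exact_mod_cast h4.le

lemma eq_emod_of_cast {K : ℕ} {m : ℕ} {g : ℤ} (h : (m : Z K) = (g : Z K)) (hm : m < 2 ^ K) :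
    (m : ℤ) = g % (2 : ℤ) ^ K := by
  have h1 : ((m : ℤ) : Z K) = (g : Z K) := by rw [Int.cast_natCast]; exact h
  have h2 := (ZMod.intCast_eq_intCast_iff (m : ℤ) g (2 ^ K)).1 h1
  have h3 : (m : ℤ) % ((2 ^ K : ℕ) : ℤ) = g % ((2 ^ K : ℕ) : ℤ) := h2
  rw [Int.emod_eq_of_lt (Int.natCast_nonneg m) (by exact_mod_cast hm)] at h3
  rw [h3]
  push_cast
  rfl

/-- **The level lemma.** -/
theorem sound_level {w S K N a : ℕ} (hN : 0 < N) (T : ℕ → Tb)
    (hT : ∀ j, j < N → Sound w S K j a (T j)) {F : Tb}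
    (hF : ∀ x y z, z < y → y < x → (F x y z : ℕ) =
      (∑ k ∈ range N, (N - 1).descFactorial k * ctr w S K (k + 1) a (T (N - (k + 1))) x y z) %
        2 ^ K) : Sound w S K N a F := by
  intro x y z h1 h2
  have hlt : F x y z < 2 ^ K := by
    rw [hF x y z h1 h2]
    exact Nat.mod_lt _ (by positivity)
  refine eq_emod_of_cast ?_ hlt
  rw [hF x y z h1 h2, ZMod.natCast_mod, H_rec w S N a x y z hN]
  push_cast
  refine Finset.sum_congr rfl fun k hk => ?_
  have hk' := Finset.mem_range.1 hk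
  rw [ctr_cast (hT _ (by omega)).tab (H_anti w S _ a)]

/-- **The level lemma with the Pieri form of the first term.** -/
theorem sound_level' {w S K N a : ℕ} (hN : 0 < N) (T : ℕ → Tb)
    (hT : ∀ j, j < N → Sound w S K j a (T j)) {F : Tb} (q : ℕ → ℕ → ℕ → ℕ)
    (hq : ∀ x y z, z < y → y < x → ((q x y z : ℕ) : Z K) =
      ((ctrZ w S 1 a (H w S (N - 1) a) x y z : ℤ) : Z K))
    (hF : ∀ x y z, z < y → y < x → (F x y z : ℕ) =
      (q x y z + ∑ k ∈ range (N - 1), (N - 1).descFactorial (k + 1) *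
        ctr w S K (k + 2) a (T (N - (k + 2))) x y z) % 2 ^ K) : Sound w S K N a F := by
  intro x y z h1 h2
  have hlt : F x y z < 2 ^ K := by
    rw [hF x y z h1 h2]
    exact Nat.mod_lt _ (by positivity)
  refine eq_emod_of_cast ?_ hlt
  obtain ⟨M, rfl⟩ : ∃ M, N = M + 1 := ⟨N - 1, by omega⟩
  rw [hF x y z h1 h2, ZMod.natCast_mod, H_rec w S (M + 1) a x y z hN, Finset.sum_range_succ']
  rw [Nat.cast_add, hq x y z h1 h2, add_comm]
  push_cast
  congr 1
  · refine Finset.sum_congr (by simp) fun k hk => ?_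
    have hk' := Finset.mem_range.1 hk
    rw [ctr_cast (hT _ (by omega)).tab (H_anti w S _ a)]
  · simp

end Vale.Agent.P181.H605
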