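import Vale.Agent.P181.H788.Prog

/-!
# P181, `a = 6`: the left tables (kernel program)

Levels `1, ..., 6` of the pair `(6, b)` with exact division. At level `N ≤ 5` every monomial
contains the exponents `0, ..., 5 - N`: the rows with `z > 0` are obtained from the rows `z = 0`,
and for `N ≤ 4` the rows `(x, y, 0)`, `y > 1`, from `(x, 1, 0)`, by moving three lines of digits.
-/

set_option autoImplicit false

noncomputable section

namespace Vale.Agent.P181.H605.LB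

open Vale.Agent.P181.H788

/-- `∑ i < L, 2 ^ (w i)` -/
def on (w L : Nat) : Nat :=
  Nat.div (Nat.sub (Nat.pow 2 (Nat.mul w L)) 1) (Nat.sub (Nat.pow 2 w) 1)

/-- exact division of all digits by `N` -/
def dv (w K L N v u : Nat) : Nat :=
  Nat.mod (Nat.add (Nat.div (Nat.mod (Nat.add u (Nat.mul N (Nat.mul (Nat.pow 2 v) (on w L))))
    (Nat.pow 2 K)) N) (Nat.sub (Nat.pow 2 K) (Nat.mul (Nat.pow 2 v) (on w L)))) (Nat.pow 2 K)

/-- add `2 ^ v` to all digits -/
def up (w K L v u : Nat) : Nat :=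
  Nat.mod (Nat.add u (Nat.mul (Nat.pow 2 v) (on w L))) (Nat.pow 2 K)

/-- the digits of the line `e2 = q` -/
def cl (w S R q : Nat) : Nat := Nat.mul (Nat.pow 2 (Nat.mul w q)) (on (Nat.mul w S) R)

/-- the digits of the line `e2 + e3 = t` -/
def al (w S R t : Nat) : Nat :=
  Nat.mul (Nat.pow 2 (Nat.mul w t)) (on (Nat.mul w (Nat.sub S 1)) (mn R (Nat.succ t)))

/-- the mask of the line `e2 = q` -/
def cm (w S R q : Nat) : Nat := Nat.mul (Nat.sub (Nat.pow 2 w) 1) (cl w S R q)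

/-- the mask of the line `e2 + e3 = t` -/
def am (w S R t : Nat) : Nat := Nat.mul (Nat.sub (Nat.pow 2 w) 1) (al w S R t)

/-- the offsets -/
def ob (w S R K v q : Nat) : Nat :=
  Nat.add (Nat.mul 3 (Nat.pow 2 K)) (Nat.mul (Nat.pow 2 v)
    (Nat.add (cl w S R q) (Nat.mul (on w S) (Nat.pow 2 (Nat.mul w (Nat.mul S q))))))

/-- the offsets -/
def oc (w S R K v q t : Nat) : Nat := Nat.add (ob w S R K v q) (Nat.mul (Nat.pow 2 v) (al w S R t))

/-- the moved row; `U` is the source with offset `2 ^ v` -/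
def mvU (w S R K v q s t U : Nat) : Nat :=
  Nat.mod (Nat.sub (oc w S R K v q t)
    (Nat.add (Nat.add
      (Nat.mul (Nat.mod (Nat.shiftRight U (Nat.mul w (Nat.mul S s))) (Nat.pow 2 (Nat.mul w S)))
        (Nat.pow 2 (Nat.mul w (Nat.mul S q))))
      (Nat.land (Nat.shiftRight U (Nat.mul w (Nat.sub s q))) (cm w S R q)))
      (Nat.land U (am w S R t)))) (Nat.pow 2 K)

/-- the row with sum `r` and a coordinate `s` from the row `F` with this coordinate `q` -/
def mv (w S R K v D q s r F : Nat) : Nat :=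
  fc (Nat.sub (Nat.sub D r) q) fun t => mvU w S R K v q s t (up w K (Nat.mul S R) v F)

/-- `y = 0`, `y = 1`, `y > 1` -/
def s3 (y A B C : Nat) : Nat :=
  @Nat.rec (fun _ => Nat) A (fun m _ => @Nat.rec (fun _ => Nat) B (fun _ _ => C) m) y

/-- `z = 0`, `z > 0` -/
def s2 (z A B : Nat) : Nat := @Nat.rec (fun _ => Nat) A (fun _ _ => B) z

/-- the rows `z = 0` from the rows `(x, 1, 0)` -/
def ey (w S R K v D : Nat) (d : Nat → Nat) (x y : Nat) : Nat :=
  s3 y 0 (d x) (mv w S R K v D 1 y (Nat.add x y) (d x))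

/-- all rows from the rows `z = 0` -/
def ez (w S R K v D : Nat) (e : Nat → Nat → Nat) : Tb := fun x y z =>
  s2 z (e x y) (mv w S R K v D 0 z (Nat.add (Nat.add x y) z) (e x y))

/-- `∑ i < n, f i` without the initial zero -/
def sm1 (f : Nat → Nat) (n : Nat) : Nat :=
  @Nat.rec (fun _ => Nat) 0 (fun m _ =>
    @Nat.rec (fun _ => Nat) (f 0) (fun i ih => Nat.add ih (f (Nat.succ i))) m) n

/-- `pie` for `z ≤ 1` -/
def pz (w S K d : Nat) (F : Tb) (x y z : Nat) : Nat :=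
  sm1 (fun a => fc (Nat.sub x a) fun x' => fc (Nat.sub d a) fun d' =>
    sm1 (fun b => fc (Nat.sub y b) fun y' => fc (Nat.sub d' b) fun r =>
      s2 z (Nat.mul (hv w S K 1 r) (F x' y' 0))
        (@Nat.rec (fun _ => Nat) (Nat.mul (hv w S K 1 0) (F x' y' 1)) (fun m _ =>
          Nat.add (Nat.mul (hv w S K 1 r) (F x' y' 1)) (Nat.mul (hv w S K 1 m) (F x' y' 0))) r))
      (mn (Nat.sub y z) (Nat.succ d')))
      (mn (Nat.sub x y) (Nat.succ d))

/-- `ctr` for `z < k` -/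
def cz (w S K k d : Nat) (F : Tb) (x y z : Nat) : Nat :=
  sm1 (fun a => fc (Nat.sub x (Nat.mul k a)) fun x' => fc (Nat.sub d a) fun d' =>
    sm1 (fun b => fc (Nat.sub y (Nat.mul k b)) fun y' => fc (Nat.sub d' b) fun r =>
      Nat.mul (hv w S K k r) (sg K F x' y' z))
      (Nat.succ (mn (Nat.div y k) d')))
      (Nat.succ (mn (Nat.div x k) d))

/-- level 0 -/
def T0 (w S K : Nat) : Tb := row0 w S K

def d1 (w S R K v b : Nat) : Nat → Nat := fun x =>
  dv w K (Nat.mul S R) 1 v (pz w S K b (T0 w S K) x 1 0)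
def e1 (w S R K v b : Nat) : Nat → Nat → Nat := ey w S R K v (Nat.add 15 b) (d1 w S R K v b)
def T1 (w S R K v b : Nat) : Tb := ez w S R K v (Nat.add 15 b) (e1 w S R K v b)

def d2 (w S R K v b : Nat) : Nat → Nat := fun x =>
  dv w K (Nat.mul S R) 2 v (Nat.add (pz w S K b (T1 w S R K v b) x 1 0)
    (cz w S K 2 b (T0 w S K) x 1 0))
def e2 (w S R K v b : Nat) : Nat → Nat → Nat :=
  ey w S R K v (Nat.add 15 (Nat.mul 2 b)) (d2 w S R K v b)
def T2 (w S R K v b : Nat) : Tb := ez w S R K v (Nat.add 15 (Nat.mul 2 b)) (e2 w S R K v b)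

def d3 (w S R K v b : Nat) : Nat → Nat := fun x =>
  dv w K (Nat.mul S R) 3 v (Nat.add (pz w S K b (T2 w S R K v b) x 1 0)
    (Nat.add (cz w S K 2 b (T1 w S R K v b) x 1 0) (cz w S K 3 b (T0 w S K) x 1 0)))
def e3 (w S R K v b : Nat) : Nat → Nat → Nat :=
  ey w S R K v (Nat.add 15 (Nat.mul 3 b)) (d3 w S R K v b)
def T3 (w S R K v b : Nat) : Tb := ez w S R K v (Nat.add 15 (Nat.mul 3 b)) (e3 w S R K v b)

def d4 (w S R K v b : Nat) : Nat → Nat := fun x =>
  dv w K (Nat.mul S R) 4 v (Nat.add (pz w S K b (T3 w S R K v b) x 1 0)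
    (Nat.add (cz w S K 2 b (T2 w S R K v b) x 1 0) (Nat.add (cz w S K 3 b (T1 w S R K v b) x 1 0)
      (cz w S K 4 b (T0 w S K) x 1 0))))
def e4 (w S R K v b : Nat) : Nat → Nat → Nat :=
  ey w S R K v (Nat.add 15 (Nat.mul 4 b)) (d4 w S R K v b)
def T4 (w S R K v b : Nat) : Tb := ez w S R K v (Nat.add 15 (Nat.mul 4 b)) (e4 w S R K v b)

def e5 (w S R K v b : Nat) : Nat → Nat → Nat := fun x y =>
  dv w K (Nat.mul S R) 5 v (Nat.add (pz w S K b (T4 w S R K v b) x y 0)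
    (Nat.add (cz w S K 2 b (T3 w S R K v b) x y 0) (Nat.add (cz w S K 3 b (T2 w S R K v b) x y 0)
      (Nat.add (cz w S K 4 b (T1 w S R K v b) x y 0) (cz w S K 5 b (T0 w S K) x y 0)))))
def T5 (w S R K v b : Nat) : Tb := ez w S R K v (Nat.add 15 (Nat.mul 5 b)) (e5 w S R K v b)

def T6 (w S R K v b : Nat) : Tb := fun x y z =>
  dv w K (Nat.mul S R) 6 v (Nat.add (pz w S K b (T5 w S R K v b) x y z)
    (Nat.add (cz w S K 2 b (T4 w S R K v b) x y z) (Nat.add (cz w S K 3 b (T3 w S R K v b) x y z)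
      (Nat.add (cz w S K 4 b (T2 w S R K v b) x y z)
        (Nat.add (cz w S K 5 b (T1 w S R K v b) x y z) (cz w S K 6 b (T0 w S K) x y z))))))

/-- the digit test -/
def dt (w K L v u : Nat) : Bool :=
  Nat.beq (Nat.land (Nat.mod (Nat.add u (Nat.mul (Nat.pow 2 v) (on w L))) (Nat.pow 2 K))
    (Nat.mul (Nat.sub (Nat.pow 2 w) (Nat.pow 2 (Nat.succ v))) (on w L))) 0

/-- `f x y` for all `y < x < X`, `4 x + y ≤ C` -/
def allQ (X C : Nat) (f : Nat → Nat → Bool) : Bool :=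
  allB (fun x => allB (fun y => fb x fun x => fb y fun y =>
    @Bool.rec (fun _ => Bool) true (f x y) (Nat.ble (Nat.add (Nat.mul 4 x) y) C)) x) X

/-- the digit tests of the levels `1, ..., 5`, rows `x < X` -/
def tests (w S R K v b X u1 u2 u3 u4 u5 : Nat) : Bool :=
  bc (allB (fun x => fb (Nat.add 2 x) fun x =>
      @Bool.rec (fun _ => Bool) true
        (bc (dt w K (Nat.mul S R) u1 (d1 w S R K v b x)) (bc (dt w K (Nat.mul S R) u2 (d2 w S R K v b x))
        (bc (dt w K (Nat.mul S R) u3 (d3 w S R K v b x)) (dt w K (Nat.mul S R) u4 (d4 w S R K v b x)))))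
        (Nat.ble (Nat.add (Nat.mul 4 x) 1) (Nat.add (Nat.mul 6 b) 9))) (Nat.sub X 2))
    (allQ X (Nat.add (Nat.mul 6 b) 9) fun x y => @Bool.rec (fun _ => Bool) true
      (dt w K (Nat.mul S R) u5 (e5 w S R K v b x y)) (Nat.ble 1 y))

end Vale.Agent.P181.H605.LB
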