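import Vale.Agent.P181.H605.Lines3

set_option autoImplicit false

/-!
# P181: soundness of the left tables
-/

namespace Vale.Agent.P181.H605

open Finset MvPolynomial Vale.Agent.P181 Vale.Agent.P181.H280 Vale.Agent.P181.H51
  Vale.Agent.P181.H788

lemma sm1_eq (f : ℕ → ℕ) (n : ℕ) : LB.sm1 f n = ∑ i ∈ range n, f i := by
  cases n with
  | zero => rfl
  | succ n =>
    change @Nat.rec (fun _ => Nat) (f 0) (fun i ih => Nat.add ih (f (Nat.succ i))) n = _
    induction n with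
    | zero => simp
    | succ n ih =>
      rw [Finset.sum_range_succ, ← ih]
      rfl

lemma pz_eq (w S K d : ℕ) (F : Tb) (x y z : ℕ) (hz : z ≤ 1) :
    LB.pz w S K d F x y z = pie w S K d F x y z := by
  unfold LB.pz pie
  simp only [sm1_eq, H605.sm_eq, H605.fc_eq]
  refine Finset.sum_congr rfl fun a _ => Finset.sum_congr rfl fun b _ => ?_
  rcases Nat.eq_zero_or_pos z with rfl | h
  · rw [H605.mn_eq, Nat.zero_min, Finset.sum_range_one]
    rfl
  · have hz1 : z = 1 := by omega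
    subst hz1
    rw [H605.mn_eq]
    generalize Nat.sub (Nat.sub d a) b = r
    cases r with
    | zero =>
      rw [Nat.min_zero, Finset.sum_range_one]
      rfl
    | succ m =>
      have h1 : Nat.succ (min 1 (m + 1)) = 2 := by omega
      rw [h1, Finset.sum_range_succ, Finset.sum_range_one]
      rfl

lemma cz_eq (w S K k d : ℕ) (F : Tb) (x y z : ℕ) (hz : z < k) :
    LB.cz w S K k d F x y z = ctr w S K k d F x y z := by
  unfold LB.cz ctr
  simp only [sm1_eq, H605.sm_eq, H605.fc_eq]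
  refine Finset.sum_congr rfl fun a _ => Finset.sum_congr rfl fun b _ => ?_
  have h1 : Nat.div z k = 0 := Nat.div_eq_of_lt hz
  rw [h1, H605.mn_eq, Nat.zero_min, Finset.sum_range_one]
  rfl

lemma dv_eq (w L N v u : ℕ) : LB.dv w (w * L) L N v u = dvs w L N v u := rfl

lemma dt_eq (w L v u : ℕ) : LB.dt w (w * L) L v u = dtest w L v u := rfl

lemma dv_le (w L N v u : ℕ) : LB.dv w (w * L) L N v u ≤ 2 ^ (w * L) := (dvs_lt w L N v u).le

lemma mv_le (w S R K v D q s r F : ℕ) : LB.mv w S R K v D q s r F ≤ 2 ^ K := by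
  unfold LB.mv
  rw [H605.fc_eq]
  exact (Nat.mod_lt _ (by change 0 < 2 ^ K; positivity)).le

lemma ey_le {w S R K v D : ℕ} {d : ℕ → ℕ} (hd : ∀ x, d x ≤ 2 ^ K) (x y : ℕ) :
    LB.ey w S R K v D d x y ≤ 2 ^ K := by
  match y with
  | 0 => exact Nat.zero_le _
  | 1 => exact hd x
  | y + 2 => exact mv_le ..

lemma ez_le {w S R K v D : ℕ} {e : ℕ → ℕ → ℕ} (he : ∀ x y, e x y ≤ 2 ^ K) (x y z : ℕ) :
    LB.ez w S R K v D e x y z ≤ 2 ^ K := by
  match z with
  | 0 => exact he x y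
  | z + 1 => exact mv_le ..

lemma rec_true {b c : Bool} (h : @Bool.rec (fun _ => Bool) true b c = true) (hc : c = true) :
    b = true := by
  subst hc
  exact h

lemma bc_iff (b c : Bool) : bc b c = true ↔ b = true ∧ c = true := by
  cases b <;> cases c <;> simp [bc]

/-- a level -/
structure LvB (w S R N a : ℕ) (Rg : ℕ → ℕ → ℕ → Prop) (F : Tb) (B : ℕ) : Prop where
  so : SOn w S R N a Rg F
  bo : BOn S R N a Rg B
  le : ∀ x y z, F x y z ≤ 2 ^ (w * (S * R))

lemma LvB.mono {w S R N a B : ℕ} {Rg Rg' : ℕ → ℕ → ℕ → Prop} {F : Tb}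
    (h : LvB w S R N a Rg F B) (hR : ∀ x y z, Rg' x y z → Rg x y z) : LvB w S R N a Rg' F B :=
  ⟨SOn.mono h.so hR, BOn.mono h.bo hR, h.le⟩

/-- One level in a region. -/
theorem dense {w S R N a v : ℕ} {Rg : ℕ → ℕ → ℕ → Prop} (hd : Down Rg) (hN : 0 < N)
    (hS : dg N a < S) (hRS : R ≤ S) (T : ℕ → Tb) (B : ℕ → ℕ)
    (hT : ∀ j < N, LvB w S R j a Rg (T j) (B j))
    (h : (a + 5).choose a * ∑ j ∈ range N, B j ≤ N * (2 ^ v - 1) + (N - 1))
    (hw : N * 2 ^ (v + 1) ≤ 2 ^ w) {F : Tb}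
    (hF : ∀ x y z, z < y → y < x → Rg x y z → (F x y z : ℕ) =
      dvs w (S * R) N v (pie w S (w * (S * R)) a (T (N - 1)) x y z +
        ∑ k ∈ range (N - 1), ctr w S (w * (S * R)) (k + 2) a (T (N - (k + 2))) x y z)) :
    SOn w S R N a Rg F ∧ BOn S R N a Rg (2 ^ v - 1) := by
  have hb : BOn S R N a Rg (2 ^ v - 1) := apriori hd hN B (fun j hj => (hT j hj).bo) h
  have h1 : 2 ^ v - 1 < 2 ^ v := by
    have : 0 < 2 ^ v := by positivity
    omega
  exact ⟨level hd hN hS hRS T (fun j hj => (hT j hj).so) (fun x y z => (hT _ (by omega)).le x y z)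
    hb h1 hw hF, hb⟩

/-- the tables -/
noncomputable def TT (w S R K v b : ℕ) : ℕ → Tb
  | 0 => LB.T0 w S K
  | 1 => LB.T1 w S R K v b
  | 2 => LB.T2 w S R K v b
  | 3 => LB.T3 w S R K v b
  | 4 => LB.T4 w S R K v b
  | 5 => LB.T5 w S R K v b
  | _ => LB.T6 w S R K v b

/-- The step of the levels `1, ..., 4`. -/
theorem low_step {w S R N b v u X D : ℕ} (hN : 0 < N) (hN5 : N < 5) (hS : dg N b < S)
    (hRS : R ≤ S) (hR : 2 * b + 4 ≤ R) (hD : D = dg N b) (T : ℕ → Tb) (B : ℕ → ℕ)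
    (hT : ∀ j < N, LvB w S R j b (RgL X (6 * b + 9) (6 * b + 9) 1) (T j) (B j))
    (h : (b + 5).choose b * ∑ j ∈ range N, B j ≤ N * (2 ^ v - 1) + (N - 1))
    (hw : N * 2 ^ (v + 1) ≤ 2 ^ w) (hu : u < v) {d : ℕ → ℕ}
    (hd : ∀ x, d x = dvs w (S * R) N v (pie w S (w * (S * R)) b (T (N - 1)) x 1 0 +
        ∑ k ∈ range (N - 1), ctr w S (w * (S * R)) (k + 2) b (T (N - (k + 2))) x 1 0))
    (ht : ∀ x < X, 2 ≤ x → 4 * x + 1 ≤ 6 * b + 9 → dtest w (S * R) u (d x) = true) :
    LvB w S R N b (RgL X (6 * b + 9) (6 * b + 9) 1)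
      (LB.ez w S R (w * (S * R)) v D (LB.ey w S R (w * (S * R)) v D d)) (2 ^ u) := by
  have hv : v + 1 ≤ w := by
    by_contra hcon
    have h1 : 2 ^ w < 2 ^ (v + 1) := Nat.pow_lt_pow_right (by norm_num) (by omega)
    have h2 : 2 ^ (v + 1) ≤ N * 2 ^ (v + 1) := Nat.le_mul_of_pos_left _ hN
    omega
  have hpos : 0 < 2 ^ v := by positivity
  have huv : 2 ^ u < 2 ^ v := Nat.pow_lt_pow_right (by norm_num) hu
  have hdw : 2 ^ v - 1 < 2 ^ (w - 1) := by
    have : 2 ^ v ≤ 2 ^ (w - 1) := Nat.pow_le_pow_right (by norm_num) (by omega)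
    omega
  obtain ⟨h1, h2⟩ := dense (RgL_down X (6 * b + 9) 1 0) hN hS hRS T B
    (fun j hj => (hT j hj).mono fun x y z hR => by unfold RgL at hR ⊢; omega) h hw
    (F := fun x _ _ => d x) (fun x y z hzy hyx hR => by
      unfold RgL at hR
      have hy : y = 1 := by omega
      have hz : z = 0 := by omega
      subst hy hz
      exact hd x)
  have h3 : BOn S R N b (RgL X (6 * b + 9) 1 0) (2 ^ u) :=
    btest h1 hS hRS h2 hdw (by omega) fun x y z hzy hyx hR => by
      unfold RgL at hR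
      exact ht x (by omega) (by omega) (by omega)
  obtain ⟨h4, h5⟩ := ey_step (l := 6 * b + 9) (D := D) hN5 hv hS hRS (by omega) hD h1 h3 huv
  obtain ⟨h6, h7⟩ := ez_step (m := 1) (D := D) (e := LB.ey w S R (w * (S * R)) v D d) (by omega) hv
    hS hRS (by omega) hD h4 h5 huv
  exact ⟨h6, h7, ez_le (ey_le fun x => by rw [hd]; exact (dvs_lt ..).le)⟩

/-- **The left tables.** -/
theorem left_tables {w S R v b X u1 u2 u3 u4 u5 K : ℕ} (hK : K = w * (S * R))
    (hS : 15 + 6 * b < S) (hRS : R ≤ S)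
    (hR : 2 * b + 4 ≤ R) (hw : 6 * 2 ^ (v + 1) ≤ 2 ^ w)
    (hu1 : u1 < v) (hu2 : u2 < v) (hu3 : u3 < v) (hu4 : u4 < v) (hu5 : u5 < v)
    (a1 : (b + 5).choose b * 1 ≤ 1 * (2 ^ v - 1) + 0)
    (a2 : (b + 5).choose b * (1 + 2 ^ u1) ≤ 2 * (2 ^ v - 1) + 1)
    (a3 : (b + 5).choose b * (1 + 2 ^ u1 + 2 ^ u2) ≤ 3 * (2 ^ v - 1) + 2)
    (a4 : (b + 5).choose b * (1 + 2 ^ u1 + 2 ^ u2 + 2 ^ u3) ≤ 4 * (2 ^ v - 1) + 3)
    (a5 : (b + 5).choose b * (1 + 2 ^ u1 + 2 ^ u2 + 2 ^ u3 + 2 ^ u4) ≤ 5 * (2 ^ v - 1) + 4)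
    (a6 : (b + 5).choose b * (1 + 2 ^ u1 + 2 ^ u2 + 2 ^ u3 + 2 ^ u4 + 2 ^ u5) ≤
      6 * (2 ^ v - 1) + 5)
    (ht : LB.tests w S R K v b X u1 u2 u3 u4 u5 = true) :
    LvB w S R 6 b (RgL X (6 * b + 9) (6 * b + 9) 1) (LB.T6 w S R K v b) (2 ^ v - 1) := by
  subst hK
  have hpos : 0 < 2 ^ v := by positivity
  have hw' : ∀ N ≤ 6, N * 2 ^ (v + 1) ≤ 2 ^ w := fun N hN =>
    (Nat.mul_le_mul_right _ hN).trans hw
  have hv : v + 1 ≤ w := by
    by_contra hcon
    have h1 : 2 ^ w < 2 ^ (v + 1) := Nat.pow_lt_pow_right (by norm_num) (by omega)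
    omega
  have hdw : 2 ^ v - 1 < 2 ^ (w - 1) := by
    have : 2 ^ v ≤ 2 ^ (w - 1) := Nat.pow_le_pow_right (by norm_num) (by omega)
    omega
  have hdg : ∀ N ≤ 6, dg N b < S := by
    intro N hN
    have : N * b ≤ 6 * b := Nat.mul_le_mul_right _ hN
    unfold dg
    omega
  -- the tests
  unfold LB.tests at ht
  rw [bc_iff] at ht
  obtain ⟨ht1, ht2⟩ := ht
  rw [allB_iff] at ht1
  have htl : ∀ x < X, 2 ≤ x → 4 * x + 1 ≤ 6 * b + 9 →
      LB.dt w (w * (S * R)) (S * R) u1 (LB.d1 w S R (w * (S * R)) v b x) = true ∧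
      LB.dt w (w * (S * R)) (S * R) u2 (LB.d2 w S R (w * (S * R)) v b x) = true ∧
      LB.dt w (w * (S * R)) (S * R) u3 (LB.d3 w S R (w * (S * R)) v b x) = true ∧
      LB.dt w (w * (S * R)) (S * R) u4 (LB.d4 w S R (w * (S * R)) v b x) = true := by
    intro x hx h2 hC
    have h3 := ht1 (x - 2) (by change x - 2 < X - 2; omega)
    rw [H51.fb_eq] at h3
    have h4 : Nat.add 2 (x - 2) = x := by change 2 + (x - 2) = x; omega
    rw [h4] at h3
    have h5 := rec_true h3 (Nat.ble_eq_true_of_le hC)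
    rw [bc_iff, bc_iff, bc_iff] at h5
    exact h5
  have hte : ∀ x y, x < X → y < x → 1 ≤ y → 4 * x + y ≤ 6 * b + 9 →
      LB.dt w (w * (S * R)) (S * R) u5 (LB.e5 w S R (w * (S * R)) v b x y) = true := by
    intro x y hx hyx hy hC
    unfold LB.allQ at ht2
    rw [allB_iff] at ht2
    have h3 := ht2 x hx
    rw [allB_iff] at h3
    have h4 := h3 y hyx
    rw [H51.fb_eq, H51.fb_eq] at h4
    have h5 := rec_true h4 (Nat.ble_eq_true_of_le hC)
    exact rec_true h5 (Nat.ble_eq_true_of_le hy)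
  -- level 0
  have l0 : LvB w S R 0 b (RgL X (6 * b + 9) (6 * b + 9) 1) (LB.T0 w S (w * (S * R))) 1 :=
    ⟨level0 w S R b _, BOn_zero S R b _, fun x y z => row0_lt w S (w * (S * R)) x y z⟩
  have l1 : LvB w S R 1 b (RgL X (6 * b + 9) (6 * b + 9) 1)
      (LB.T1 w S R (w * (S * R)) v b) (2 ^ u1) := by
    refine low_step (D := Nat.add 15 b) (by norm_num) (by norm_num) (hdg 1 (by norm_num)) hRS hR
      (by unfold dg; change 15 + b = _; omega) (TT w S R (w * (S * R)) v b) (fun _ => 1)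
      (fun j hj => ?_) (by simpa using a1) (hw' 1 (by norm_num)) hu1 (fun x => ?_)
      (fun x hx h2 hC => (htl x hx h2 hC).1)
    · have : j = 0 := by omega
      subst this
      exact l0
    · rw [Nat.sub_self, Finset.sum_range_zero, Nat.add_zero]
      change dvs w (S * R) 1 v (LB.pz w S (w * (S * R)) b (LB.T0 w S (w * (S * R))) x 1 0) = _
      rw [pz_eq _ _ _ _ _ _ _ _ (by norm_num)]
      rfl
  have l2 : LvB w S R 2 b (RgL X (6 * b + 9) (6 * b + 9) 1)
      (LB.T2 w S R (w * (S * R)) v b) (2 ^ u2) := by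
    refine low_step (D := Nat.add 15 (Nat.mul 2 b)) (by norm_num) (by norm_num)
      (hdg 2 (by norm_num)) hRS hR rfl (TT w S R (w * (S * R)) v b)
      (fun j => match j with | 0 => 1 | _ => 2 ^ u1)
      (fun j hj => ?_) (by simpa [Finset.sum_range_succ] using a2) (hw' 2 (by norm_num)) hu2
      (fun x => ?_) (fun x hx h2 hC => (htl x hx h2 hC).2.1)
    · match j, hj with
      | 0, _ => exact l0
      | 1, _ => exact l1
    · simp only [Nat.reduceSub, Finset.sum_range_succ, Finset.sum_range_zero, Nat.zero_add,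
        Nat.reduceAdd]
      change dvs w (S * R) 2 v (LB.pz w S (w * (S * R)) b (LB.T1 w S R (w * (S * R)) v b) x 1 0 +
        LB.cz w S (w * (S * R)) 2 b (LB.T0 w S (w * (S * R))) x 1 0) = _
      rw [pz_eq _ _ _ _ _ _ _ _ (by norm_num), cz_eq _ _ _ _ _ _ _ _ _ (by norm_num)]
      rfl
  have l3 : LvB w S R 3 b (RgL X (6 * b + 9) (6 * b + 9) 1)
      (LB.T3 w S R (w * (S * R)) v b) (2 ^ u3) := by
    refine low_step (D := Nat.add 15 (Nat.mul 3 b)) (by norm_num) (by norm_num)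
      (hdg 3 (by norm_num)) hRS hR rfl (TT w S R (w * (S * R)) v b)
      (fun j => match j with | 0 => 1 | 1 => 2 ^ u1 | _ => 2 ^ u2)
      (fun j hj => ?_) (by simpa [Finset.sum_range_succ] using a3) (hw' 3 (by norm_num)) hu3
      (fun x => ?_) (fun x hx h2 hC => (htl x hx h2 hC).2.2.1)
    · match j, hj with
      | 0, _ => exact l0
      | 1, _ => exact l1
      | 2, _ => exact l2
    · simp only [Nat.reduceSub, Finset.sum_range_succ, Finset.sum_range_zero, Nat.zero_add,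
        Nat.reduceAdd]
      change dvs w (S * R) 3 v (LB.pz w S (w * (S * R)) b (LB.T2 w S R (w * (S * R)) v b) x 1 0 +
        (LB.cz w S (w * (S * R)) 2 b (LB.T1 w S R (w * (S * R)) v b) x 1 0 +
          LB.cz w S (w * (S * R)) 3 b (LB.T0 w S (w * (S * R))) x 1 0)) = _
      rw [pz_eq _ _ _ _ _ _ _ _ (by norm_num), cz_eq _ _ _ _ _ _ _ _ _ (by norm_num),
        cz_eq _ _ _ _ _ _ _ _ _ (by norm_num)]
      rfl
  have l4 : LvB w S R 4 b (RgL X (6 * b + 9) (6 * b + 9) 1)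
      (LB.T4 w S R (w * (S * R)) v b) (2 ^ u4) := by
    refine low_step (D := Nat.add 15 (Nat.mul 4 b)) (by norm_num) (by norm_num)
      (hdg 4 (by norm_num)) hRS hR rfl (TT w S R (w * (S * R)) v b)
      (fun j => match j with | 0 => 1 | 1 => 2 ^ u1 | 2 => 2 ^ u2 | _ => 2 ^ u3)
      (fun j hj => ?_) (by simpa [Finset.sum_range_succ] using a4) (hw' 4 (by norm_num)) hu4
      (fun x => ?_) (fun x hx h2 hC => (htl x hx h2 hC).2.2.2)
    · match j, hj with
      | 0, _ => exact l0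
      | 1, _ => exact l1
      | 2, _ => exact l2
      | 3, _ => exact l3
    · simp only [Nat.reduceSub, Finset.sum_range_succ, Finset.sum_range_zero, Nat.zero_add,
        Nat.reduceAdd]
      change dvs w (S * R) 4 v (LB.pz w S (w * (S * R)) b (LB.T3 w S R (w * (S * R)) v b) x 1 0 +
        (LB.cz w S (w * (S * R)) 2 b (LB.T2 w S R (w * (S * R)) v b) x 1 0 +
          (LB.cz w S (w * (S * R)) 3 b (LB.T1 w S R (w * (S * R)) v b) x 1 0 +
            LB.cz w S (w * (S * R)) 4 b (LB.T0 w S (w * (S * R))) x 1 0))) = _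
      rw [pz_eq _ _ _ _ _ _ _ _ (by norm_num), cz_eq _ _ _ _ _ _ _ _ _ (by norm_num),
        cz_eq _ _ _ _ _ _ _ _ _ (by norm_num), cz_eq _ _ _ _ _ _ _ _ _ (by norm_num)]
      congr 1
      change _ = pie w S (w * (S * R)) b (LB.T3 w S R (w * (S * R)) v b) x 1 0 +
        (ctr w S (w * (S * R)) 2 b (LB.T2 w S R (w * (S * R)) v b) x 1 0 +
          ctr w S (w * (S * R)) 3 b (LB.T1 w S R (w * (S * R)) v b) x 1 0 +
            ctr w S (w * (S * R)) 4 b (LB.T0 w S (w * (S * R))) x 1 0)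
      ring
  have hB5 : ∀ j < 5, LvB w S R j b (RgL X (6 * b + 9) (6 * b + 9) 1)
      (TT w S R (w * (S * R)) v b j)
      ((fun j => match j with | 0 => 1 | 1 => 2 ^ u1 | 2 => 2 ^ u2 | 3 => 2 ^ u3 | _ => 2 ^ u4) j)
      := by
    intro j hj
    match j, hj with
    | 0, _ => exact l0
    | 1, _ => exact l1
    | 2, _ => exact l2
    | 3, _ => exact l3
    | 4, _ => exact l4
  -- level 5
  have l5 : LvB w S R 5 b (RgL X (6 * b + 9) (6 * b + 9) 1)
      (LB.T5 w S R (w * (S * R)) v b) (2 ^ u5) := by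
    obtain ⟨h1, h2⟩ := dense (F := fun x y _ => LB.e5 w S R (w * (S * R)) v b x y)
      (RgL_down X (6 * b + 9) (6 * b + 9) 0) (N := 5) (v := v) (by norm_num)
      (hdg 5 (by norm_num)) hRS (TT w S R (w * (S * R)) v b) _
      (fun j hj => (hB5 j hj).mono fun x y z hR => by unfold RgL at hR ⊢; omega)
      (by simpa [Finset.sum_range_succ] using a5) (hw' 5 (by norm_num))
      (fun x y z hzy hyx hR => by
        unfold RgL at hR
        have hz : z = 0 := by omega
        subst hz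
        simp only [Nat.reduceSub, Finset.sum_range_succ, Finset.sum_range_zero, Nat.zero_add,
          Nat.reduceAdd]
        change dvs w (S * R) 5 v (LB.pz w S (w * (S * R)) b (LB.T4 w S R (w * (S * R)) v b) x y 0 +
          (LB.cz w S (w * (S * R)) 2 b (LB.T3 w S R (w * (S * R)) v b) x y 0 +
            (LB.cz w S (w * (S * R)) 3 b (LB.T2 w S R (w * (S * R)) v b) x y 0 +
              (LB.cz w S (w * (S * R)) 4 b (LB.T1 w S R (w * (S * R)) v b) x y 0 +
                LB.cz w S (w * (S * R)) 5 b (LB.T0 w S (w * (S * R))) x y 0)))) = _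
        rw [pz_eq _ _ _ _ _ _ _ _ (by norm_num), cz_eq _ _ _ _ _ _ _ _ _ (by norm_num),
          cz_eq _ _ _ _ _ _ _ _ _ (by norm_num), cz_eq _ _ _ _ _ _ _ _ _ (by norm_num),
          cz_eq _ _ _ _ _ _ _ _ _ (by norm_num)]
        congr 1
        change _ = pie w S (w * (S * R)) b (LB.T4 w S R (w * (S * R)) v b) x y 0 +
          (ctr w S (w * (S * R)) 2 b (LB.T3 w S R (w * (S * R)) v b) x y 0 +
            ctr w S (w * (S * R)) 3 b (LB.T2 w S R (w * (S * R)) v b) x y 0 +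
              ctr w S (w * (S * R)) 4 b (LB.T1 w S R (w * (S * R)) v b) x y 0 +
                ctr w S (w * (S * R)) 5 b (LB.T0 w S (w * (S * R))) x y 0)
        ring)
    have h3 : BOn S R 5 b (RgL X (6 * b + 9) (6 * b + 9) 0) (2 ^ u5) :=
      btest h1 (hdg 5 (by norm_num)) hRS h2 hdw (by omega) fun x y z hzy hyx hR => by
        unfold RgL at hR
        exact hte x y (by omega) hyx (by omega) (by omega)
    obtain ⟨h6, h7⟩ := ez_step (m := 1) (D := Nat.add 15 (Nat.mul 5 b))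
      (e := LB.e5 w S R (w * (S * R)) v b) (by norm_num) hv
      (hdg 5 (by norm_num)) hRS (by omega) rfl h1 h3 (Nat.pow_lt_pow_right (by norm_num) hu5)
    exact ⟨h6, h7, ez_le fun x y => (dvs_lt ..).le⟩
  have hB6 : ∀ j < 6, LvB w S R j b (RgL X (6 * b + 9) (6 * b + 9) 1)
      (TT w S R (w * (S * R)) v b j)
      ((fun j => match j with
        | 0 => 1
        | 1 => 2 ^ u1
        | 2 => 2 ^ u2
        | 3 => 2 ^ u3
        | 4 => 2 ^ u4
        | _ => 2 ^ u5) j) := by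
    intro j hj
    match j, hj with
    | 0, _ => exact l0
    | 1, _ => exact l1
    | 2, _ => exact l2
    | 3, _ => exact l3
    | 4, _ => exact l4
    | 5, _ => exact l5
  -- level 6
  obtain ⟨h1, h2⟩ := dense (F := LB.T6 w S R (w * (S * R)) v b)
      (RgL_down X (6 * b + 9) (6 * b + 9) 1) (N := 6) (v := v) (by norm_num)
      (hdg 6 (by norm_num)) hRS (TT w S R (w * (S * R)) v b) _ hB6
      (by simpa [Finset.sum_range_succ] using a6) (hw' 6 (by norm_num))
      (fun x y z hzy hyx hR => by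
        unfold RgL at hR
        simp only [Nat.reduceSub, Finset.sum_range_succ, Finset.sum_range_zero, Nat.zero_add,
          Nat.reduceAdd]
        change dvs w (S * R) 6 v (LB.pz w S (w * (S * R)) b (LB.T5 w S R (w * (S * R)) v b) x y z +
          (LB.cz w S (w * (S * R)) 2 b (LB.T4 w S R (w * (S * R)) v b) x y z +
            (LB.cz w S (w * (S * R)) 3 b (LB.T3 w S R (w * (S * R)) v b) x y z +
              (LB.cz w S (w * (S * R)) 4 b (LB.T2 w S R (w * (S * R)) v b) x y z +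
                (LB.cz w S (w * (S * R)) 5 b (LB.T1 w S R (w * (S * R)) v b) x y z +
                  LB.cz w S (w * (S * R)) 6 b (LB.T0 w S (w * (S * R))) x y z))))) = _
        rw [pz_eq _ _ _ _ _ _ _ _ (by omega), cz_eq _ _ _ _ _ _ _ _ _ (by omega),
          cz_eq _ _ _ _ _ _ _ _ _ (by omega), cz_eq _ _ _ _ _ _ _ _ _ (by omega),
          cz_eq _ _ _ _ _ _ _ _ _ (by omega), cz_eq _ _ _ _ _ _ _ _ _ (by omega)]
        congr 1
        change _ = pie w S (w * (S * R)) b (LB.T5 w S R (w * (S * R)) v b) x y z +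
          (ctr w S (w * (S * R)) 2 b (LB.T4 w S R (w * (S * R)) v b) x y z +
            ctr w S (w * (S * R)) 3 b (LB.T3 w S R (w * (S * R)) v b) x y z +
              ctr w S (w * (S * R)) 4 b (LB.T2 w S R (w * (S * R)) v b) x y z +
                ctr w S (w * (S * R)) 5 b (LB.T1 w S R (w * (S * R)) v b) x y z +
                  ctr w S (w * (S * R)) 6 b (LB.T0 w S (w * (S * R))) x y z)
        ring)
  exact ⟨h1, h2, fun x y z => (dvs_lt ..).le⟩

end Vale.Agent.P181.H605
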