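import Vale.Agent.P181.H605.ProgB
import Vale.Agent.P181.H788.TabD
import Vale.Agent.P181.H900.Grow
import Vale.Agent.P181.H900.C15
import Vale.Agent.P181.H900.C17
import Vale.Agent.P181.H900.C19
import Vale.Agent.P181.H900.G14

set_option autoImplicit false

/-!
# P181, `a = 6`: the checks with the left table of the pair `(6, 15)` (kernel part)
-/

noncomputable section

namespace Vale.Agent.P181.H605.G15

open Vale.Agent.P181.H788 Vale.Agent.P181.H900

/-- the digit tests -/
def tst : Bool := LB.tests 27 106 34 97308 23 15 26 1 1 3 6 11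

/-- the pair `(6, 15)`, `0 ≤ λ₆ < 2` -/
def chk15 : Bool :=
  gro 15 27 106 34 (LB.T6 27 106 34 97308 23 15) tt 0 19 C15.cd 42 C15.cl 0 26 100 0 2

/-- the pair `(6, 17)`, `2 ≤ λ₆ < 4` -/
def chk17 : Bool :=
  gro 17 27 106 34 (LB.T6 27 106 34 97308 23 15) tt 2 21 C17.cd 152 C17.cl 0 28 100 2 4

/-- the pair `(6, 19)`, `4 ≤ λ₆ < 5` -/
def chk19 : Bool :=
  gro 19 27 106 34 (LB.T6 27 106 34 97308 23 15) tt 4 23 C19.cd 170 C19.cl 0 30 100 4 5

/-- all tests -/
def run : Bool := bc tst (bc chk15 (bc chk17 chk19))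

theorem run_true : run = true := by
  decide +kernel

end Vale.Agent.P181.H605.G15
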