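import Vale.Agent.P181.H605.LeftB

set_option autoImplicit false

/-!
# P181: the left tables for `b = 14, ..., 19`
-/

namespace Vale.Agent.P181.H605

open Vale.Agent.P181.H51 Vale.Agent.P181.H788

lemma rgL_of {X b x y z : ℕ} (hx : x < X) (hz : z ≤ 1) (h : 4 * x + y + z ≤ 6 * b + 9) :
    RgL X (6 * b + 9) (6 * b + 9) 1 x y z := by
  unfold RgL
  omega

/-- `b = 14` -/
theorem lv14 (X : ℕ) (ht : LB.tests 25 100 32 80000 21 14 X 1 1 3 5 10 = true) :
    LvB 25 100 32 6 14 (RgL X (6 * 14 + 9) (6 * 14 + 9) 1) (LB.T6 25 100 32 80000 21 14)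
      (2 ^ 21 - 1) :=
  left_tables (by norm_num) (by norm_num) (by norm_num) (by norm_num) (by norm_num) (by norm_num)
    (by norm_num) (by norm_num) (by norm_num) (by norm_num) (by decide +kernel)
    (by decide +kernel) (by decide +kernel) (by decide +kernel) (by decide +kernel)
    (by decide +kernel) ht

/-- `b = 15` -/
theorem lv15 (X : ℕ) (ht : LB.tests 27 106 34 97308 23 15 X 1 1 3 6 11 = true) :
    LvB 27 106 34 6 15 (RgL X (6 * 15 + 9) (6 * 15 + 9) 1) (LB.T6 27 106 34 97308 23 15)
      (2 ^ 23 - 1) :=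
  left_tables (by norm_num) (by norm_num) (by norm_num) (by norm_num) (by norm_num) (by norm_num)
    (by norm_num) (by norm_num) (by norm_num) (by norm_num) (by decide +kernel)
    (by decide +kernel) (by decide +kernel) (by decide +kernel) (by decide +kernel)
    (by decide +kernel) ht

/-- `b = 16` -/
theorem lv16 (X : ℕ) (ht : LB.tests 27 112 36 108864 23 16 X 1 1 3 6 11 = true) :
    LvB 27 112 36 6 16 (RgL X (6 * 16 + 9) (6 * 16 + 9) 1) (LB.T6 27 112 36 108864 23 16)
      (2 ^ 23 - 1) :=
  left_tables (by norm_num) (by norm_num) (by norm_num) (by norm_num) (by norm_num) (by norm_num)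
    (by norm_num) (by norm_num) (by norm_num) (by norm_num) (by decide +kernel)
    (by decide +kernel) (by decide +kernel) (by decide +kernel) (by decide +kernel)
    (by decide +kernel) ht

/-- `b = 17` -/
theorem lv17 (X : ℕ) (ht : LB.tests 29 118 38 130036 25 17 X 1 1 3 6 12 = true) :
    LvB 29 118 38 6 17 (RgL X (6 * 17 + 9) (6 * 17 + 9) 1) (LB.T6 29 118 38 130036 25 17)
      (2 ^ 25 - 1) :=
  left_tables (by norm_num) (by norm_num) (by norm_num) (by norm_num) (by norm_num) (by norm_num)
    (by norm_num) (by norm_num) (by norm_num) (by norm_num) (by decide +kernel)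
    (by decide +kernel) (by decide +kernel) (by decide +kernel) (by decide +kernel)
    (by decide +kernel) ht

/-- `b = 18` -/
theorem lv18 (X : ℕ) (ht : LB.tests 29 124 40 143840 25 18 X 1 1 3 6 12 = true) :
    LvB 29 124 40 6 18 (RgL X (6 * 18 + 9) (6 * 18 + 9) 1) (LB.T6 29 124 40 143840 25 18)
      (2 ^ 25 - 1) :=
  left_tables (by norm_num) (by norm_num) (by norm_num) (by norm_num) (by norm_num) (by norm_num)
    (by norm_num) (by norm_num) (by norm_num) (by norm_num) (by decide +kernel)
    (by decide +kernel) (by decide +kernel) (by decide +kernel) (by decide +kernel)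
    (by decide +kernel) ht

/-- `b = 19` -/
theorem lv19 (X : ℕ) (ht : LB.tests 30 130 42 163800 26 19 X 1 1 3 7 13 = true) :
    LvB 30 130 42 6 19 (RgL X (6 * 19 + 9) (6 * 19 + 9) 1) (LB.T6 30 130 42 163800 26 19)
      (2 ^ 26 - 1) :=
  left_tables (by norm_num) (by norm_num) (by norm_num) (by norm_num) (by norm_num) (by norm_num)
    (by norm_num) (by norm_num) (by norm_num) (by norm_num) (by decide +kernel)
    (by decide +kernel) (by decide +kernel) (by decide +kernel) (by decide +kernel)
    (by decide +kernel) ht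

end Vale.Agent.P181.H605
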