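import Vale.Agent.P181.H605.G16
import Vale.Agent.P181.H605.LeftT
import Vale.Agent.P181.H900.GrowS
import Vale.Agent.P181.H900.Cok
import Vale.Agent.P181.H788.TabS

set_option autoImplicit false

/-!
# P181, `a = 6`: the checks with the left table of the pair `(6, 16)`
-/

namespace Vale.Agent.P181.H605.G16

open Vale.Agent.P181.H788 Vale.Agent.P181.H788.FL Vale.Agent.P181.H900 Vale.Agent.P181.H51

theorem reads (h : tst = true) : Reads 27 112 36 16 (RgL 27 (6 * 16 + 9) (6 * 16 + 9) 1)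
    (LB.T6 27 112 36 108864 23 16) :=
  reads_of_son (lv16 27 h).so (by unfold dg; norm_num) (by norm_num) (lv16 27 h).bo
    (by norm_num) (by norm_num)

/-- the pair `(6, 16)`, `0 ≤ λ₆ < 2` -/
theorem _root_.Vale.Agent.P181.H605.g_16_16 {lam : Fin 6 → ℕ} (hn : H558.Need 16 lam)
    (hz0 : 0 ≤ lam 5) (hz : lam 5 < 2) : H558.Fo 16 lam := by
  obtain ⟨hanti, hsum, c1, c2, c3, c4, c5⟩ := hn
  have h := run_true
  unfold run at h
  simp only [H900.bc_iff] at h
  have hs : lam 0 + lam 1 + lam 2 + lam 3 + lam 4 + lam 5 = 6 * 16 := by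
    rw [← hsum, Fin.sum_univ_six]
  have a01 : lam 1 ≤ lam 0 := hanti (by decide)
  have a12 : lam 2 ≤ lam 1 := hanti (by decide)
  have a23 : lam 3 ≤ lam 2 := hanti (by decide)
  have a34 : lam 4 ≤ lam 3 := hanti (by decide)
  have a45 : lam 5 ≤ lam 4 := hanti (by decide)
  have hm : H558.maxLast 16 = 5 := by decide
  have h1 : gro 16 27 112 36 (LB.T6 27 112 36 108864 23 16) tt (2 * 0) 20 C16.cd 87 C16.cl 0 27 100
      (2 * 0) 2 = true := h.2.1
  exact growG (b' := 16) (K := 0) rfl (reads h.1) tt_ok cok16 h1 (by norm_num) (by norm_num)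
    (fun x y z _ _ _ _ _ _ => by unfold RgL; omega) hanti hsum (by omega) c2 c3 (by omega)
    (by omega) (by omega) (by omega) (by omega)

/-- the pair `(6, 18)`, `2 ≤ λ₆ < 4` -/
theorem _root_.Vale.Agent.P181.H605.g_16_18 {lam : Fin 6 → ℕ} (hn : H558.Need 18 lam)
    (hz0 : 2 ≤ lam 5) (hz : lam 5 < 4) : H558.Fo 18 lam := by
  obtain ⟨hanti, hsum, c1, c2, c3, c4, c5⟩ := hn
  have h := run_true
  unfold run at h
  simp only [H900.bc_iff] at h
  have hs : lam 0 + lam 1 + lam 2 + lam 3 + lam 4 + lam 5 = 6 * 18 := by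
    rw [← hsum, Fin.sum_univ_six]
  have a01 : lam 1 ≤ lam 0 := hanti (by decide)
  have a12 : lam 2 ≤ lam 1 := hanti (by decide)
  have a23 : lam 3 ≤ lam 2 := hanti (by decide)
  have a34 : lam 4 ≤ lam 3 := hanti (by decide)
  have a45 : lam 5 ≤ lam 4 := hanti (by decide)
  have hm : H558.maxLast 18 = 2 := by decide
  have h1 : gro 18 27 112 36 (LB.T6 27 112 36 108864 23 16) tt (2 * 1) 22 C18.cd 105 C18.cl 0 29 100
      (2 * 1) 3 = true := h.2.2
  exact growG (b' := 16) (K := 1) rfl (reads h.1) tt_ok cok18 h1 (by norm_num) (by norm_num)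
    (fun x y z _ _ _ _ _ _ => by unfold RgL; omega) hanti hsum (by omega) c2 c3 (by omega)
    (by omega) (by omega) (by omega) (by omega)

end Vale.Agent.P181.H605.G16
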