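import Vale.Agent.P181.H605.ProgB
import Vale.Agent.P181.H788.TabD
import Vale.Agent.P181.H900.Grow
import Vale.Agent.P181.H900.C17
import Vale.Agent.P181.H900.C19
import Vale.Agent.P181.H605.G17A

set_option autoImplicit false

/-!
# P181, `a = 6`: the checks with the left table of the pair `(6, 17)` (kernel part)
-/

noncomputable section

namespace Vale.Agent.P181.H605.G17B

open Vale.Agent.P181.H788 Vale.Agent.P181.H900

/-- the digit tests -/
def tst : Bool := LB.tests 29 118 38 130036 25 17 28 1 1 3 6 12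

/-- the pair `(6, 17)`, `0 ≤ λ₆ < 2` -/
def chk17 : Bool :=
  gro 17 29 118 38 (LB.T6 29 118 38 130036 25 17) tt 0 21 C17.cd 152 C17.cl 20 8 100 0 2

/-- the pair `(6, 19)`, `2 ≤ λ₆ < 4` -/
def chk19 : Bool :=
  gro 19 29 118 38 (LB.T6 29 118 38 130036 25 17) tt 2 23 C19.cd 170 C19.cl 22 8 100 2 4

/-- all tests -/
def run : Bool := bc tst (bc chk17 chk19)

theorem run_true : run = true := by
  decide +kernel

end Vale.Agent.P181.H605.G17B
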