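import Vale.Agent.P181.H605.ProgB
import Vale.Agent.P181.H788.TabD
import Vale.Agent.P181.H900.Grow
import Vale.Agent.P181.H900.C19
import Vale.Agent.P181.H605.G19A

set_option autoImplicit false

/-!
# P181, `a = 6`: the checks with the left table of the pair `(6, 19)` (kernel part)
-/

noncomputable section

namespace Vale.Agent.P181.H605.G19B

open Vale.Agent.P181.H788 Vale.Agent.P181.H900

/-- the digit tests -/
def tst : Bool := LB.tests 30 130 42 163800 26 19 31 1 1 3 7 13

/-- the pair `(6, 19)`, `0 ≤ λ₆ < 2` -/
def chk19 : Bool :=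
  gro 19 30 130 42 (LB.T6 30 130 42 163800 26 19) tt 0 23 C19.cd 170 C19.cl 22 9 100 0 2

/-- all tests -/
def run : Bool := bc tst chk19

theorem run_true : run = true := by
  decide +kernel

end Vale.Agent.P181.H605.G19B
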