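import Vale.Agent.P181.H605.G15S
import Vale.Agent.P181.H605.G16S
import Vale.Agent.P181.H605.G17AS
import Vale.Agent.P181.H605.G17BS
import Vale.Agent.P181.H605.G18AS
import Vale.Agent.P181.H605.G18BS
import Vale.Agent.P181.H605.G19AS
import Vale.Agent.P181.H605.G19BS

set_option autoImplicit false

/-!
# P181, `a = 6`: the checks for the left tables `b = 17, 18, 19`
-/

namespace Vale.Agent.P181.H605

/-- the pair `(6, 17)`, `0 ≤ λ₆ < 2` -/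
theorem g_17_17 {lam : Fin 6 → ℕ} (hn : H558.Need 17 lam)
    (hz0 : 0 ≤ lam 5) (hz : lam 5 < 2) : H558.Fo 17 lam := by
  obtain ⟨hanti, hsum, c1, c2, c3, c4, c5⟩ := hn
  have hs : lam 0 + lam 1 + lam 2 + lam 3 + lam 4 + lam 5 = 6 * 17 := by
    rw [← hsum, Fin.sum_univ_six]
  have a01 : lam 1 ≤ lam 0 := hanti (by decide)
  have a12 : lam 2 ≤ lam 1 := hanti (by decide)
  have a23 : lam 3 ≤ lam 2 := hanti (by decide)
  have a34 : lam 4 ≤ lam 3 := hanti (by decide)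
  have a45 : lam 5 ≤ lam 4 := hanti (by decide)
  rcases Nat.lt_or_ge (lam 3 + 2) 20 with h | h
  · exact g_17_17a ⟨hanti, hsum, c1, c2, c3, c4, c5⟩ hz0 hz (Nat.zero_le _) h
  · exact g_17_17b ⟨hanti, hsum, c1, c2, c3, c4, c5⟩ hz0 hz h (by omega)

/-- the pair `(6, 19)`, `2 ≤ λ₆ < 4` -/
theorem g_17_19 {lam : Fin 6 → ℕ} (hn : H558.Need 19 lam)
    (hz0 : 2 ≤ lam 5) (hz : lam 5 < 4) : H558.Fo 19 lam := by
  obtain ⟨hanti, hsum, c1, c2, c3, c4, c5⟩ := hn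
  have hs : lam 0 + lam 1 + lam 2 + lam 3 + lam 4 + lam 5 = 6 * 19 := by
    rw [← hsum, Fin.sum_univ_six]
  have a01 : lam 1 ≤ lam 0 := hanti (by decide)
  have a12 : lam 2 ≤ lam 1 := hanti (by decide)
  have a23 : lam 3 ≤ lam 2 := hanti (by decide)
  have a34 : lam 4 ≤ lam 3 := hanti (by decide)
  have a45 : lam 5 ≤ lam 4 := hanti (by decide)
  rcases Nat.lt_or_ge (lam 3 + 2) 22 with h | h
  · exact g_17_19a ⟨hanti, hsum, c1, c2, c3, c4, c5⟩ hz0 hz (Nat.zero_le _) h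
  · exact g_17_19b ⟨hanti, hsum, c1, c2, c3, c4, c5⟩ hz0 hz h (by omega)

/-- the pair `(6, 18)`, `0 ≤ λ₆ < 2` -/
theorem g_18_18 {lam : Fin 6 → ℕ} (hn : H558.Need 18 lam)
    (hz0 : 0 ≤ lam 5) (hz : lam 5 < 2) : H558.Fo 18 lam := by
  obtain ⟨hanti, hsum, c1, c2, c3, c4, c5⟩ := hn
  have hs : lam 0 + lam 1 + lam 2 + lam 3 + lam 4 + lam 5 = 6 * 18 := by
    rw [← hsum, Fin.sum_univ_six]
  have a01 : lam 1 ≤ lam 0 := hanti (by decide)
  have a12 : lam 2 ≤ lam 1 := hanti (by decide)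
  have a23 : lam 3 ≤ lam 2 := hanti (by decide)
  have a34 : lam 4 ≤ lam 3 := hanti (by decide)
  have a45 : lam 5 ≤ lam 4 := hanti (by decide)
  rcases Nat.lt_or_ge (lam 3 + 2) 21 with h | h
  · exact g_18_18a ⟨hanti, hsum, c1, c2, c3, c4, c5⟩ hz0 hz (Nat.zero_le _) h
  · exact g_18_18b ⟨hanti, hsum, c1, c2, c3, c4, c5⟩ hz0 hz h (by omega)

/-- the pair `(6, 19)`, `0 ≤ λ₆ < 2` -/
theorem g_19_19 {lam : Fin 6 → ℕ} (hn : H558.Need 19 lam)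
    (hz0 : 0 ≤ lam 5) (hz : lam 5 < 2) : H558.Fo 19 lam := by
  obtain ⟨hanti, hsum, c1, c2, c3, c4, c5⟩ := hn
  have hs : lam 0 + lam 1 + lam 2 + lam 3 + lam 4 + lam 5 = 6 * 19 := by
    rw [← hsum, Fin.sum_univ_six]
  have a01 : lam 1 ≤ lam 0 := hanti (by decide)
  have a12 : lam 2 ≤ lam 1 := hanti (by decide)
  have a23 : lam 3 ≤ lam 2 := hanti (by decide)
  have a34 : lam 4 ≤ lam 3 := hanti (by decide)
  have a45 : lam 5 ≤ lam 4 := hanti (by decide)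
  rcases Nat.lt_or_ge (lam 3 + 2) 22 with h | h
  · exact g_19_19a ⟨hanti, hsum, c1, c2, c3, c4, c5⟩ hz0 hz (Nat.zero_le _) h
  · exact g_19_19b ⟨hanti, hsum, c1, c2, c3, c4, c5⟩ hz0 hz h (by omega)

end Vale.Agent.P181.H605
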