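import Vale.Agent.P181.H177.Row0

set_option autoImplicit false

/-!
# P181: the levels of the left side (at most six letters of degree `b`), scaled by `N!`
-/

noncomputable section

namespace Vale.Agent.P181.H605

open Finset Vale.Agent.P181.H788

/-- levels of at most six letters of degree `b` -/
def L0 (w S K _b : Nat) : Tb := fun x y z => row0 w S K x y z
def L1 (w S K b : Nat) : Tb := fun x y z => Nat.mod (pie w S K b (L0 w S K b) x y z) (Nat.pow 2 K)
def L2 (w S K b : Nat) : Tb := fun x y z => Nat.mod (Nat.add (pie w S K b (L1 w S K b) x y z)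
    (ctr w S K 2 b (L0 w S K b) x y z)) (Nat.pow 2 K)
def L3 (w S K b : Nat) : Tb := fun x y z => Nat.mod (Nat.add (Nat.add
    (pie w S K b (L2 w S K b) x y z)
    (Nat.mul 2 (ctr w S K 2 b (L1 w S K b) x y z)))
    (Nat.mul 2 (ctr w S K 3 b (L0 w S K b) x y z))) (Nat.pow 2 K)
def L4 (w S K b : Nat) : Tb := fun x y z => Nat.mod (Nat.add (Nat.add (Nat.add
    (pie w S K b (L3 w S K b) x y z)
    (Nat.mul 3 (ctr w S K 2 b (L2 w S K b) x y z)))
    (Nat.mul 6 (ctr w S K 3 b (L1 w S K b) x y z)))
    (Nat.mul 6 (ctr w S K 4 b (L0 w S K b) x y z))) (Nat.pow 2 K)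
def L5 (w S K b : Nat) : Tb := fun x y z => Nat.mod (Nat.add (Nat.add (Nat.add (Nat.add
    (pie w S K b (L4 w S K b) x y z)
    (Nat.mul 4 (ctr w S K 2 b (L3 w S K b) x y z)))
    (Nat.mul 12 (ctr w S K 3 b (L2 w S K b) x y z)))
    (Nat.mul 24 (ctr w S K 4 b (L1 w S K b) x y z)))
    (Nat.mul 24 (ctr w S K 5 b (L0 w S K b) x y z))) (Nat.pow 2 K)
def L6 (w S K b : Nat) : Tb := fun x y z => Nat.mod (Nat.add (Nat.add (Nat.add (Nat.add (Nat.add
    (pie w S K b (L5 w S K b) x y z)
    (Nat.mul 5 (ctr w S K 2 b (L4 w S K b) x y z)))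
    (Nat.mul 20 (ctr w S K 3 b (L3 w S K b) x y z)))
    (Nat.mul 60 (ctr w S K 4 b (L2 w S K b) x y z)))
    (Nat.mul 120 (ctr w S K 5 b (L1 w S K b) x y z)))
    (Nat.mul 120 (ctr w S K 6 b (L0 w S K b) x y z))) (Nat.pow 2 K)

/-- the levels as a sequence -/
def LT (w S K b : Nat) : ℕ → Tb
  | 0 => L0 w S K b
  | 1 => L1 w S K b
  | 2 => L2 w S K b
  | 3 => L3 w S K b
  | 4 => L4 w S K b
  | 5 => L5 w S K b
  | _ => L6 w S K b

theorem Lft_sound (w S K b : ℕ) : ∀ N, N ≤ 6 → Sound w S K N b (LT w S K b N) := by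
  intro N
  induction N using Nat.strong_induction_on with
  | _ N ih =>
    intro hN
    rcases Nat.eq_zero_or_pos N with rfl | hpos
    · exact H177.row0_sound w S K b
    · refine sound_level' hpos (LT w S K b) (fun j hj => ih j hj (by omega))
        (pie w S K b (LT w S K b (N - 1))) ?_ ?_
      · intro x y z h1 h2
        exact H177.pie_sound (ih (N - 1) (by omega) (by omega)) h1 h2
      · intro x y z _ _
        obtain rfl | rfl | rfl | rfl | rfl | rfl : N = 1 ∨ N = 2 ∨ N = 3 ∨ N = 4 ∨ N = 5 ∨ N = 6 := by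
          omega
        · simp [LT, L1]
          first | done | rfl
        · simp [LT, L2, Finset.sum_range_succ]
          first | done | rfl
        · simp [LT, L3, Finset.sum_range_succ, Nat.descFactorial]
          ring_nf
          rfl
        · simp [LT, L4, Finset.sum_range_succ, Nat.descFactorial]
          ring_nf
          rfl
        · simp [LT, L5, Finset.sum_range_succ, Nat.descFactorial]
          ring_nf
          rfl
        · simp [LT, L6, Finset.sum_range_succ, Nat.descFactorial]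
          ring_nf
          rfl

theorem L6_sound (w S K b : ℕ) : Sound w S K 6 b (L6 w S K b) := Lft_sound w S K b 6 le_rfl

end Vale.Agent.P181.H605
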