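import Vale.Agent.P181.H51.Level2
import Vale.Agent.P181.H530.Zero

set_option autoImplicit false

/-!
# P181: at level `N ≤ 5` every monomial contains the exponents `0, ..., 5 - N`
-/

namespace Vale.Agent.P181.H605

open Finset MvPolynomial Vale.Agent.P181 Vale.Agent.P181.H280 Vale.Agent.P181.H51

/-- A nonzero coefficient sits at a permutation of `lam + delta`. -/
lemma exists_sort {n N a : ℕ} (nu : Fin n → ℕ) (h : coeff (fs nu) (Fgen n N a) ≠ 0) :
    ∃ (lam : Fin n → ℕ) (τ : Equiv.Perm (Fin n)), (∀ i, nu (τ i) = lam i + (n - 1 - i)) ∧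
      plethMult N a n lam ≠ 0 := by
  classical
  have hW : Weyl n N a := H177.plethMult_weyl n N a
  by_cases hinj : Function.Injective nu
  · let f : Fin n → ℕᵒᵈ := fun i => OrderDual.toDual (nu i)
    let τ := Tuple.sort f
    have hmono : Monotone (f ∘ τ) := Tuple.monotone_sort f
    have hstrict : ∀ i j : Fin n, i < j → nu (τ j) < nu (τ i) := by
      intro i j hij
      have h1 : f (τ i) ≤ f (τ j) := hmono hij.le
      have h2 : nu (τ j) ≤ nu (τ i) := h1
      exact lt_of_le_of_ne h2 (fun h => hij.ne' (τ.injective (hinj h)))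
    have hlow : ∀ k : ℕ, ∀ i : Fin n, n - 1 - (i : ℕ) = k → k ≤ nu (τ i) := by
      intro k
      induction k with
      | zero => intro i _; exact Nat.zero_le _
      | succ k ih =>
        intro i hi
        have h3 : (i : ℕ) + 1 < n := by omega
        have h4 := ih ⟨i + 1, h3⟩ (by change n - 1 - ((i : ℕ) + 1) = k; omega)
        have h5 := hstrict i ⟨i + 1, h3⟩ (by rw [Fin.lt_def]; exact Nat.lt_succ_self _)
        omega
    let lam : Fin n → ℕ := fun i => nu (τ i) - (n - 1 - i)
    have hsum : lam + dl n = fun i => nu (τ i) := by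
      funext i
      have := hlow _ i rfl
      change nu (τ i) - (n - 1 - i) + (n - 1 - i) = nu (τ i)
      omega
    have hanti : Antitone lam := by
      have hstep : ∀ d : ℕ, ∀ i j : Fin n, (j : ℕ) = i + d → nu (τ j) + d ≤ nu (τ i) := by
        intro d
        induction d with
        | zero =>
          intro i j hij
          have : i = j := Fin.ext (by omega)
          subst this
          omega
        | succ d ih =>
          intro i j hij
          have h3 : (i : ℕ) + d < n := by have := j.2; omega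
          have h4 := ih i ⟨i + d, h3⟩ rfl
          have h5 := hstrict ⟨i + d, h3⟩ j (by rw [Fin.lt_def]; change (i : ℕ) + d < j; omega)
          omega
      intro i j hij
      change nu (τ j) - (n - 1 - j) ≤ nu (τ i) - (n - 1 - i)
      have h3 : (i : ℕ) ≤ j := hij
      have h4 := hstep ((j : ℕ) - i) i j (by omega)
      have h5 := hlow _ j rfl
      have h6 := hlow _ i rfl
      have h7 := j.2
      omega
    refine ⟨lam, τ, fun i => (congrFun hsum i).symm, ?_⟩
    intro h0
    have h1 := coeff_Fgen_perm n N a τ nu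
    have h2 := coeff_Fgen_of_weyl hW lam hanti
    rw [hsum, h0, Nat.cast_zero] at h2
    rw [h2] at h1
    rcases Int.units_eq_one_or (Equiv.Perm.sign τ) with h3 | h3
    · rw [h3] at h1
      exact h (by simpa using h1.symm)
    · rw [h3] at h1
      apply h
      simpa using h1.symm
  · exact absurd (coeff_Fgen_eq_zero n N a nu hinj) h

/-- The small exponents occur. -/
lemma exists_exp {N a q : ℕ} (hq : q + N < 6) (nu : Fin 6 → ℕ)
    (h : coeff (fs nu) (Fgen 6 N a) ≠ 0) : ∃ i, nu i = q := by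
  obtain ⟨lam, τ, h1, h2⟩ := exists_sort nu h
  have h3 : 5 - q < 6 := by omega
  refine ⟨τ ⟨5 - q, h3⟩, ?_⟩
  have h4 := (H530.zero_stmt N a 6 lam h2).2.2 ⟨5 - q, h3⟩ (by change N ≤ 5 - q; omega)
  rw [h1, h4]
  change 0 + (6 - 1 - (5 - q)) = q
  omega

/-- the first exponent -/
def ex1 (N a e2 e3 x y z : ℕ) : ℕ := dg N a - (x + y + z + e2 + e3)

lemma cf_missing {N a q : ℕ} (hq : q + N < 6) {e2 e3 x y z : ℕ}
    (h1 : ex1 N a e2 e3 x y z ≠ q) (h2 : e2 ≠ q) (h3 : e3 ≠ q) (hx : x ≠ q) (hy : y ≠ q)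
    (hz : z ≠ q) : cf N a e2 e3 x y z = 0 := by
  by_contra h
  unfold cf at h
  split_ifs at h with hle
  · obtain ⟨i, hi⟩ := exists_exp hq _ h
    fin_cases i
    · exact h1 hi
    · exact h2 hi
    · exact h3 hi
    · exact hx hi
    · exact hy hi
    · exact hz hi
  · exact h rfl

/-- a transposition of two places changes the sign -/
lemma coeff_swap {N a : ℕ} (nu nu' : Fin 6 → ℕ) (i j : Fin 6) (hij : i ≠ j)
    (h : ∀ k, nu' k = nu (Equiv.swap i j k)) :
    coeff (fs nu') (Fgen 6 N a) = - coeff (fs nu) (Fgen 6 N a) := by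
  have h1 := coeff_Fgen_perm 6 N a (Equiv.swap i j) nu
  have h2 : (fun k => nu (Equiv.swap i j k)) = nu' := by
    funext k
    exact (h k).symm
  rw [h2, Equiv.Perm.sign_swap hij] at h1
  rw [h1]
  simp

lemma cf_sw3 (N a e2 e3 x y z : ℕ) : cf N a e2 z x y e3 = - cf N a e2 e3 x y z := by
  unfold cf
  have h0 : x + y + e3 + e2 + z = x + y + z + e2 + e3 := by ring
  rw [h0]
  split_ifs with h
  · refine coeff_swap _ _ 2 5 (by decide) fun k => ?_
    fin_cases k <;> rfl
  · simp

lemma cf_sw2 (N a e2 e3 x y z : ℕ) : cf N a z e3 x y e2 = - cf N a e2 e3 x y z := by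
  unfold cf
  have h0 : x + y + e2 + z + e3 = x + y + z + e2 + e3 := by ring
  rw [h0]
  split_ifs with h
  · refine coeff_swap _ _ 1 5 (by decide) fun k => ?_
    fin_cases k <;> rfl
  · simp

lemma cf_sw1 (N a e2 e3 x y z q : ℕ) (h : x + y + z + e2 + e3 + q = dg N a) :
    cf N a e2 e3 x y q = - cf N a e2 e3 x y z := by
  unfold cf
  rw [if_pos (by omega), if_pos (by omega)]
  refine coeff_swap _ _ 0 5 (by decide) fun k => ?_
  fin_cases k
  · change dg N a - (x + y + q + e2 + e3) = z
    omega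
  · rfl
  · rfl
  · rfl
  · rfl
  · change q = dg N a - (x + y + z + e2 + e3)
    omega

lemma cf_z23 (N a e x y z : ℕ) : cf N a e e x y z = 0 := by
  unfold cf
  split_ifs
  · apply coeff_Fgen_eq_zero
    intro h
    exact absurd (h (show (![_, e, e, x, y, z] : Fin 6 → ℕ) 1 = _ from rfl : _ = (![_, e, e, x, y, z] : Fin 6 → ℕ) 2)) (by decide)
  · rfl

lemma cf_z12 {N a e2 e3 x y z : ℕ} (h : x + y + z + e2 + e3 + e2 = dg N a) :
    cf N a e2 e3 x y z = 0 := by
  unfold cf
  split_ifs
  · apply coeff_Fgen_eq_zero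
    intro hinj
    have h1 : dg N a - (x + y + z + e2 + e3) = e2 := by omega
    have h2 := @hinj 0 1 h1
    exact absurd h2 (by decide)
  · rfl

lemma cf_z13 {N a e2 e3 x y z : ℕ} (h : x + y + z + e2 + e3 + e3 = dg N a) :
    cf N a e2 e3 x y z = 0 := by
  unfold cf
  split_ifs
  · apply coeff_Fgen_eq_zero
    intro hinj
    have h1 : dg N a - (x + y + z + e2 + e3) = e3 := by omega
    have h2 := @hinj 0 2 h1
    exact absurd h2 (by decide)
  · rfl

/-- **Moving a line**: the last place from `z` to `q`. -/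
theorem cf_move {N a q : ℕ} (hq : q + N < 6) {e2 e3 x y z : ℕ} (hx : x ≠ q) (hy : y ≠ q)
    (hz : z ≠ q) : cf N a e2 e3 x y z =
      - ((if e3 = q then cf N a e2 z x y q else 0) + (if e2 = q then cf N a z e3 x y q else 0) +
        (if x + y + z + e2 + e3 + q = dg N a then cf N a e2 e3 x y q else 0)) := by
  have h3 : e3 = q → cf N a e2 z x y q = - cf N a e2 e3 x y z := by
    rintro rfl
    exact cf_sw3 N a e2 e3 x y z
  have h2 : e2 = q → cf N a z e3 x y q = - cf N a e2 e3 x y z := by
    rintro rfl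
    exact cf_sw2 N a e2 e3 x y z
  have h1 := cf_sw1 N a e2 e3 x y z q
  by_cases c3 : e3 = q
  · rw [if_pos c3, h3 c3]
    by_cases c2 : e2 = q
    · have h0 : cf N a e2 e3 x y z = 0 := by rw [c2, c3]; exact cf_z23 N a q x y z
      rw [if_pos c2, h2 c2, h0]
      split_ifs with c1
      · rw [h1 c1, h0]; simp
      · simp
    · rw [if_neg c2]
      split_ifs with c1
      · have h0 : cf N a e2 e3 x y z = 0 := cf_z13 (by rw [c3] at c1 ⊢; exact c1)
        rw [h1 c1, h0]; simp
      · simp
  · rw [if_neg c3]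
    by_cases c2 : e2 = q
    · rw [if_pos c2, h2 c2]
      split_ifs with c1
      · have h0 : cf N a e2 e3 x y z = 0 := cf_z12 (by rw [c2] at c1 ⊢; exact c1)
        rw [h1 c1, h0]; simp
      · simp
    · rw [if_neg c2]
      split_ifs with c1
      · rw [h1 c1]; simp
      · by_cases hle : x + y + z + e2 + e3 ≤ dg N a
        · rw [cf_missing hq (by unfold ex1; omega) c2 c3 hx hy hz]; simp
        · rw [cf, if_neg hle]; simp

/-- The same for the middle place. -/
theorem cf_move2 {N a q : ℕ} (hq : q + N < 6) {e2 e3 x y z : ℕ} (hx : x ≠ q) (hy : y ≠ q)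
    (hz : z ≠ q) : cf N a e2 e3 x y z =
      - ((if e3 = q then cf N a e2 y x q z else 0) + (if e2 = q then cf N a y e3 x q z else 0) +
        (if x + y + z + e2 + e3 + q = dg N a then cf N a e2 e3 x q z else 0)) := by
  rw [cf_swap2 N a e2 e3 x z y, cf_move hq hx hz hy, cf_swap2 N a e2 y x z q,
    cf_swap2 N a y e3 x z q, cf_swap2 N a e2 e3 x z q]
  have h0 : x + z + y + e2 + e3 + q = x + y + z + e2 + e3 + q := by ring
  rw [h0]
  split_ifs <;> ring

end Vale.Agent.P181.H605
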