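import Vale.Agent.P181.H51.Val
import Vale.Agent.P181.H605.ProgB
import Vale.Agent.P181.H605.Prg

set_option autoImplicit false

/-!
# P181: moving lines of digits of a packed row
-/

namespace Vale.Agent.P181.H605

open Finset Vale.Agent.P181.H51 Vale.Agent.P181.H788

lemma nev_add (w a m : ℕ) (e : ℕ → ℕ) :
    nev w (a + m) e = nev w a e + 2 ^ (w * a) * nev w m (fun i => e (a + i)) := by
  unfold nev
  rw [Finset.sum_range_add, Finset.mul_sum]
  congr 1
  refine Finset.sum_congr rfl fun i _ => ?_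
  rw [Nat.mul_add, pow_add]
  ring

lemma nev_congr {w L : ℕ} {e f : ℕ → ℕ} (h : ∀ i < L, e i = f i) : nev w L e = nev w L f := by
  unfold nev
  exact Finset.sum_congr rfl fun i hi => by rw [h i (Finset.mem_range.1 hi)]

lemma nev_div {w L d : ℕ} (hd : d ≤ L) {e : ℕ → ℕ} (he : ∀ i < L, e i < 2 ^ w) :
    nev w L e / 2 ^ (w * d) = nev w (L - d) (fun i => e (d + i)) := by
  obtain ⟨m, rfl⟩ : ∃ m, L = d + m := ⟨L - d, by omega⟩
  rw [nev_add, Nat.add_mul_div_left _ _ (by positivity),
    Nat.div_eq_of_lt (nev_lt w d e fun i hi => he i (by omega)), Nat.zero_add, Nat.add_sub_cancel_left]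

lemma nev_mod {w L m : ℕ} (hm : m ≤ L) {e : ℕ → ℕ} (he : ∀ i < L, e i < 2 ^ w) :
    nev w L e % 2 ^ (w * m) = nev w m e := by
  obtain ⟨k, rfl⟩ : ∃ k, L = m + k := ⟨L - m, by omega⟩
  rw [nev_add, Nat.add_mul_mod_self_left, Nat.mod_eq_of_lt (nev_lt w m e fun i hi => he i (by omega))]

lemma nev_window {w L a m : ℕ} (h : a + m ≤ L) {e : ℕ → ℕ} (he : ∀ i < L, e i < 2 ^ w) :
    nev w L e / 2 ^ (w * a) % 2 ^ (w * m) = nev w m (fun i => e (a + i)) := by
  rw [nev_div (by omega) he, nev_mod (by omega) fun i hi => he _ (by omega)]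

/-- shortening -/
lemma nev_short {w L m : ℕ} (hm : m ≤ L) (e : ℕ → ℕ) :
    nev w m e = nev w L (fun i => if i < m then e i else 0) := by
  obtain ⟨k, rfl⟩ : ∃ k, L = m + k := ⟨L - m, by omega⟩
  rw [nev_add]
  have h1 : nev w k (fun i => if m + i < m then e (m + i) else 0) = 0 := by
    unfold nev
    apply Finset.sum_eq_zero
    intro i _
    change (if m + i < m then e (m + i) else 0) * 2 ^ (w * i) = 0
    rw [if_neg (by omega), Nat.zero_mul]
  rw [h1, Nat.mul_zero, Nat.add_zero]
  exact nev_congr fun i hi => by rw [if_pos hi]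

lemma land_step {w A B a b : ℕ} (ha : a < 2 ^ w) (hb : b < 2 ^ w) :
    (2 ^ w * A + a) &&& (2 ^ w * B + b) = 2 ^ w * (A &&& B) + (a &&& b) := by
  apply Nat.eq_of_testBit_eq
  intro i
  rw [Nat.testBit_land, Nat.testBit_two_pow_mul_add _ ha, Nat.testBit_two_pow_mul_add _ hb,
    Nat.testBit_two_pow_mul_add _ (Nat.and_lt_two_pow a hb)]
  split_ifs
  · rw [Nat.testBit_land]
  · rw [Nat.testBit_land]

lemma nev_land {w : ℕ} (L : ℕ) : ∀ {e m : ℕ → ℕ}, (∀ i < L, e i < 2 ^ w) → (∀ i < L, m i < 2 ^ w) →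
    nev w L e &&& nev w L m = nev w L (fun i => e i &&& m i) := by
  induction L with
  | zero => intro e m _ _; simp [nev_zero]
  | succ L ih =>
    intro e m he hm
    rw [nev_succ, nev_succ, nev_succ, land_step (he 0 (by omega)) (hm 0 (by omega)),
      ih (fun i hi => he _ (by omega)) (fun i hi => hm _ (by omega))]

lemma nev_mask {w L : ℕ} {e : ℕ → ℕ} (he : ∀ i < L, e i < 2 ^ w) (p : ℕ → Prop)
    [DecidablePred p] : nev w L e &&& nev w L (fun i => if p i then 2 ^ w - 1 else 0) =
      nev w L (fun i => if p i then e i else 0) := by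
  have h1 : 0 < 2 ^ w := by positivity
  rw [nev_land L he (fun i _ => by split_ifs <;> omega)]
  refine nev_congr fun i hi => ?_
  split_ifs
  · rw [Nat.and_two_pow_sub_one_eq_mod, Nat.mod_eq_of_lt (he i hi)]
  · exact Nat.and_zero _

/-- The digits in a grid. -/
lemma sum_grid {M : Type*} [AddCommMonoid M] (S : ℕ) (f : ℕ → M) : ∀ R : ℕ,
    ∑ i ∈ range (S * R), f i = ∑ e3 ∈ range R, ∑ e2 ∈ range S, f (e2 + S * e3) := by
  intro R
  induction R with
  | zero => simp
  | succ R ih =>
    rw [Nat.mul_succ, Finset.sum_range_add, ih, Finset.sum_range_succ]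
    congr 1
    exact Finset.sum_congr rfl fun i _ => by rw [Nat.add_comm]

lemma mod_grid {S e2 e3 : ℕ} (h : e2 < S) : (e2 + S * e3) % S = e2 := by
  rw [Nat.add_mul_mod_self_left, Nat.mod_eq_of_lt h]

lemma div_grid {S e2 e3 : ℕ} (h : e2 < S) : (e2 + S * e3) / S = e3 := by
  rw [Nat.add_mul_div_left _ _ (by omega), Nat.div_eq_of_lt h, Nat.zero_add]

lemma nev_grid {w S R : ℕ} (g : ℕ → ℕ → ℕ) : nev w (S * R) (fun i => g (i % S) (i / S)) =
    ∑ e3 ∈ range R, ∑ e2 ∈ range S, g e2 e3 * 2 ^ (w * (e2 + S * e3)) := by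
  unfold nev
  rw [sum_grid]
  refine Finset.sum_congr rfl fun e3 _ => Finset.sum_congr rfl fun e2 he => ?_
  beta_reduce
  rw [mod_grid (Finset.mem_range.1 he), div_grid (Finset.mem_range.1 he)]

/-- the line `e3 = q` -/
lemma nev_line3 {w S R q : ℕ} (hq : q < R) (g : ℕ → ℕ) :
    nev w (S * R) (fun i => if i / S = q then g (i % S) else 0) =
      nev w S g * 2 ^ (w * (S * q)) := by
  rw [nev_grid (fun e2 e3 => if e3 = q then g e2 else 0)]
  rw [Finset.sum_eq_single q]
  · simp only [if_true]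
    unfold nev
    rw [Finset.sum_mul]
    refine Finset.sum_congr rfl fun i _ => ?_
    rw [Nat.mul_add, pow_add, ← mul_assoc]
  · intro e3 _ h
    apply Finset.sum_eq_zero
    intro e2 _
    rw [if_neg h, Nat.zero_mul]
  · intro h
    exact absurd (Finset.mem_range.2 hq) h

lemma on_eq (w L : ℕ) : LB.on w L = ones w L := rfl

lemma sum_ones (w L : ℕ) (hw : 0 < w) : ∑ i ∈ range L, 2 ^ (w * i) = ones w L := by
  have h := nev_const w L 1 hw
  rw [Nat.one_mul] at h
  rw [← h]
  unfold nev
  simp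

/-- the line `e2 = q` -/
lemma nev_line2 {w S R q : ℕ} (hw : 0 < w) (hq : q < S) (c : ℕ) :
    nev w (S * R) (fun i => if i % S = q then c else 0) = c * LB.cl w S R q := by
  rw [nev_grid (fun e2 e3 => if e2 = q then c else 0)]
  have h1 : ∀ e3 ∈ range R, ∑ e2 ∈ range S, (if e2 = q then c else 0) * 2 ^ (w * (e2 + S * e3)) =
      c * (2 ^ (w * q) * 2 ^ (w * S * e3)) := by
    intro e3 _
    rw [Finset.sum_eq_single q]
    · rw [if_pos rfl, Nat.mul_add, pow_add, Nat.mul_assoc]
    · intro e2 _ h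
      rw [if_neg h, Nat.zero_mul]
    · intro h
      exact absurd (Finset.mem_range.2 hq) h
  rw [Finset.sum_congr rfl h1, ← Finset.mul_sum, ← Finset.mul_sum, sum_ones _ _ (by
    apply Nat.mul_pos hw; omega)]
  rfl

/-- the line `e2 + e3 = t` -/
lemma nev_line1 {w S R t : ℕ} (hw : 0 < w) (hS : 1 < S) (ht : t < S) (c : ℕ) :
    nev w (S * R) (fun i => if i % S + i / S = t then c else 0) = c * LB.al w S R t := by
  rw [nev_grid (fun e2 e3 => if e2 + e3 = t then c else 0)]
  have h1 : ∀ e3 ∈ range R, ∑ e2 ∈ range S,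
      (if e2 + e3 = t then c else 0) * 2 ^ (w * (e2 + S * e3)) =
      if e3 < t + 1 then c * (2 ^ (w * t) * 2 ^ (w * (S - 1) * e3)) else 0 := by
    intro e3 _
    split_ifs with h
    · rw [Finset.sum_eq_single (t - e3)]
      · rw [if_pos (by omega), ← pow_add]
        congr 2
        obtain ⟨k, rfl⟩ : ∃ k, t = e3 + k := ⟨t - e3, by omega⟩
        obtain ⟨j, rfl⟩ : ∃ j, S = j + 1 := ⟨S - 1, by omega⟩
        rw [Nat.add_sub_cancel, Nat.add_sub_cancel_left]
        ring
      · intro e2 _ h2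
        rw [if_neg (by omega), Nat.zero_mul]
      · intro h2
        exact absurd (Finset.mem_range.2 (by omega)) h2
    · apply Finset.sum_eq_zero
      intro e2 _
      rw [if_neg (by omega), Nat.zero_mul]
  rw [Finset.sum_congr rfl h1, ← Finset.sum_filter]
  have h2 : (range R).filter (fun e3 => e3 < t + 1) = range (min R (t + 1)) := by
    ext i
    simp only [Finset.mem_filter, Finset.mem_range]
    omega
  rw [h2, ← Finset.mul_sum, ← Finset.mul_sum, sum_ones _ _ (by
    apply Nat.mul_pos hw; omega)]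
  unfold LB.al
  rw [H605.mn_eq]
  rfl

lemma ev_congr {X : ℤ} {L : ℕ} {d e : ℕ → ℤ} (h : ∀ i < L, d i = e i) : ev X L d = ev X L e := by
  unfold ev
  exact Finset.sum_congr rfl fun i hi => by rw [h i (Finset.mem_range.1 hi)]

/-- **Soundness of `mvU`.** -/
theorem mvU_sound {w S R v q s t F B : ℕ} {c : ℕ → ℕ → ℤ} (hv : v + 1 ≤ w) (hS : 1 < S)
    (hc : ∀ e2 < S, ∀ e3 < R, |c e2 e3| ≤ B) (hB : B < 2 ^ v)
    (hF : (F : ℤ) ≡ ev (2 ^ w) (S * R) (flat S c) [ZMOD 2 ^ (w * (S * R))])
    (hqs : q ≤ s) (hsR : s < R) (hsS : s < S) (ht : t < S) :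
    ((LB.mvU w S R (w * (S * R)) v q s t (LB.up w (w * (S * R)) (S * R) v F) : ℕ) : ℤ) ≡
      ev (2 ^ w) (S * R) (flat S (fun e2 e3 => -((if e3 = q then c e2 s else 0) +
        (if e2 = q then c s e3 else 0) + (if e2 + e3 = t then c e2 e3 else 0))))
        [ZMOD 2 ^ (w * (S * R))] := by
  have hw : 0 < w := by omega
  have h2v : (2 : ℤ) ^ (v + 1) ≤ 2 ^ w := pow_le_pow_right₀ (by norm_num) hv
  have hvv : (2 : ℤ) ^ (v + 1) = 2 * 2 ^ v := pow_succ' 2 v
  have hBz : (B : ℤ) < 2 ^ v := by exact_mod_cast hB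
  have hd : ∀ i < S * R, -2 ^ v ≤ flat S c i ∧ flat S c i + 2 ^ v < 2 ^ w := by
    intro i hi
    have h1 := flat_forall (p := fun z => |z| ≤ B) hc i hi
    have h2 := abs_le.1 h1
    constructor <;> linarith [h2.1, h2.2]
  set e : ℕ → ℕ := fun i => (flat S c i + 2 ^ v).toNat with hedef
  have hU : LB.up w (w * (S * R)) (S * R) v F = nev w (S * R) e := shift_eq_nev hw hd hF
  have hec : ∀ i < S * R, ((e i : ℕ) : ℤ) = flat S c i + 2 ^ v := fun i hi =>
    Int.toNat_of_nonneg (by linarith [(hd i hi).1])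
  have he : ∀ i < S * R, e i < 2 ^ w := by
    intro i hi
    have h1 := hec i hi
    have h2 := (hd i hi).2
    rw [← h1] at h2
    exact_mod_cast h2
  have hSs : S * s + S ≤ S * R := by
    calc S * s + S = S * (s + 1) := by ring
      _ ≤ S * R := Nat.mul_le_mul_left _ hsR
  -- the three lines
  have hA : Nat.shiftRight (nev w (S * R) e) (w * (S * s)) % 2 ^ (w * S) * 2 ^ (w * (S * q)) =
      nev w (S * R) (fun i => if i / S = q then e (S * s + i % S) else 0) := by
    rw [nev_line3 (lt_of_le_of_lt hqs hsR) (fun j => e (S * s + j))]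
    change (nev w (S * R) e >>> (w * (S * s))) % 2 ^ (w * S) * 2 ^ (w * (S * q)) = _
    rw [Nat.shiftRight_eq_div_pow, nev_window hSs he]
  have hcm : LB.cm w S R q = nev w (S * R) (fun i => if i % S = q then 2 ^ w - 1 else 0) :=
    (nev_line2 hw (lt_of_le_of_lt hqs hsS) (2 ^ w - 1)).symm
  have ham : LB.am w S R t = nev w (S * R) (fun i => if i % S + i / S = t then 2 ^ w - 1 else 0) :=
    (nev_line1 hw hS ht (2 ^ w - 1)).symm
  have hB' : Nat.land (Nat.shiftRight (nev w (S * R) e) (w * (s - q))) (LB.cm w S R q) =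
      nev w (S * R) (fun i => if i % S = q then
        (if i < S * R - (s - q) then e (s - q + i) else 0) else 0) := by
    rw [hcm]
    change (nev w (S * R) e >>> (w * (s - q))) &&& _ = _
    have h1 : s - q ≤ S * R := by
      have : s < S * R := by
        calc s < S := hsS
          _ ≤ S * s + S := by omega
          _ ≤ S * R := hSs
      omega
    rw [Nat.shiftRight_eq_div_pow, nev_div h1 he, nev_short (Nat.sub_le (S * R) (s - q)),
      nev_mask (fun i hi => by
        split_ifs
        · exact he _ (by omega)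
        · positivity)]
  have hC : Nat.land (nev w (S * R) e) (LB.am w S R t) =
      nev w (S * R) (fun i => if i % S + i / S = t then e i else 0) := by
    rw [ham]
    exact nev_mask he _
  set nA := nev w (S * R) (fun i => if i / S = q then e (S * s + i % S) else 0) with hnA
  set nB := nev w (S * R) (fun i => if i % S = q then
        (if i < S * R - (s - q) then e (s - q + i) else 0) else 0) with hnB
  set nC := nev w (S * R) (fun i => if i % S + i / S = t then e i else 0) with hnC
  have hoc : LB.oc w S R (w * (S * R)) v q t = 3 * 2 ^ (w * (S * R)) +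
      (nev w (S * R) (fun i => if i % S = q then 2 ^ v else 0) +
        nev w (S * R) (fun i => if i / S = q then 2 ^ v else 0)) +
      nev w (S * R) (fun i => if i % S + i / S = t then 2 ^ v else 0) := by
    rw [nev_line2 hw (lt_of_le_of_lt hqs hsS), nev_line1 hw hS ht,
      nev_line3 (lt_of_le_of_lt hqs hsR) (fun _ => 2 ^ v), nev_const _ _ _ hw]
    change 3 * 2 ^ (w * (S * R)) + 2 ^ v * (LB.cl w S R q + ones w S * 2 ^ (w * (S * q))) +
      2 ^ v * LB.al w S R t = _
    ring
  have hlA : nA < 2 ^ (w * (S * R)) := by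
    apply nev_lt
    intro i hi
    split_ifs
    · apply he
      have hS0 : 0 < S := by omega
      have := Nat.mod_lt i hS0
      omega
    · positivity
  have hlB : nB < 2 ^ (w * (S * R)) := by
    apply nev_lt
    intro i hi
    split_ifs
    · exact he _ (by omega)
    · positivity
    · positivity
  have hlC : nC < 2 ^ (w * (S * R)) := by
    apply nev_lt
    intro i hi
    split_ifs
    · exact he i hi
    · positivity
  have hval : LB.mvU w S R (w * (S * R)) v q s t (LB.up w (w * (S * R)) (S * R) v F) =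
      (LB.oc w S R (w * (S * R)) v q t - (nA + nB + nC)) % 2 ^ (w * (S * R)) := by
    rw [hU, ← hA, ← hB', ← hC]
    rfl
  rw [hval]
  have hle : nA + nB + nC ≤ LB.oc w S R (w * (S * R)) v q t := by
    rw [hoc]
    omega
  push_cast [Nat.cast_sub hle]
  refine (Int.mod_modEq _ _).trans ?_
  rw [hoc]
  push_cast
  rw [hnA, hnB, hnC]
  simp only [cast_nev]
  have hkey : ev (2 ^ w) (S * R) (flat S (fun e2 e3 => -((if e3 = q then c e2 s else 0) +
        (if e2 = q then c s e3 else 0) + (if e2 + e3 = t then c e2 e3 else 0)))) =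
      (ev (2 ^ w) (S * R) (fun i => ((if i % S = q then 2 ^ v else 0 : ℕ) : ℤ)) +
        ev (2 ^ w) (S * R) (fun i => ((if i / S = q then 2 ^ v else 0 : ℕ) : ℤ)) +
        ev (2 ^ w) (S * R) (fun i => ((if i % S + i / S = t then 2 ^ v else 0 : ℕ) : ℤ))) -
      (ev (2 ^ w) (S * R) (fun i => ((if i / S = q then e (S * s + i % S) else 0 : ℕ) : ℤ)) +
        ev (2 ^ w) (S * R) (fun i => ((if i % S = q then
          (if i < S * R - (s - q) then e (s - q + i) else 0) else 0 : ℕ) : ℤ)) +
        ev (2 ^ w) (S * R) (fun i => ((if i % S + i / S = t then e i else 0 : ℕ) : ℤ))) := by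
    rw [← ev_add, ← ev_add, ← ev_add, ← ev_add, ← ev_sub]
    refine ev_congr fun i hi => ?_
    have hS0 : 0 < S := by omega
    have hm := Nat.mod_lt i hS0
    have hdv : i / S < R := Nat.div_lt_of_lt_mul hi
    have hi2 : i = i % S + S * (i / S) := (Nat.mod_add_div i S).symm
    have k1 : (((if i / S = q then e (S * s + i % S) else 0 : ℕ)) : ℤ) =
        (if i / S = q then c (i % S) s + 2 ^ v else 0) := by
      split_ifs
      · rw [hec _ (by omega), Nat.add_comm, flat_eq c hm]
      · rfl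
    have k2 : (((if i % S = q then
          (if i < S * R - (s - q) then e (s - q + i) else 0) else 0 : ℕ)) : ℤ) =
        (if i % S = q then c s (i / S) + 2 ^ v else 0) := by
      split_ifs with g1 g2
      · rw [hec _ (by omega)]
        have : s - q + i = s + S * (i / S) := by omega
        rw [this, flat_eq c hsS]
      · exfalso
        have h3 : s + S * (i / S) < S * R := lt_index hsS hdv
        omega
      · rfl
    have k3 : (((if i % S + i / S = t then e i else 0 : ℕ)) : ℤ) =
        (if i % S + i / S = t then c (i % S) (i / S) + 2 ^ v else 0) := by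
      split_ifs
      · rw [hec i hi]; rfl
      · rfl
    rw [k1, k2, k3]
    change -((if i / S = q then c (i % S) s else 0) +
        (if i % S = q then c s (i / S) else 0) +
          (if i % S + i / S = t then c (i % S) (i / S) else 0)) = _
    split_ifs <;> push_cast <;> ring
  rw [hkey]
  have h5 : ∀ a b : ℤ, 3 * 2 ^ (w * (S * R)) + a - b ≡ a - b [ZMOD 2 ^ (w * (S * R))] := by
    intro a b
    have : 3 * 2 ^ (w * (S * R)) + a - b = (a - b) + 2 ^ (w * (S * R)) * 3 := by ring
    rw [this]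
    exact (Int.modEq_add_fac_self ..)
  have h6 := h5 (ev (2 ^ w) (S * R) (fun i => ((if i % S = q then 2 ^ v else 0 : ℕ) : ℤ)) +
        ev (2 ^ w) (S * R) (fun i => ((if i / S = q then 2 ^ v else 0 : ℕ) : ℤ)) +
        ev (2 ^ w) (S * R) (fun i => ((if i % S + i / S = t then 2 ^ v else 0 : ℕ) : ℤ)))
    (ev (2 ^ w) (S * R) (fun i => ((if i / S = q then e (S * s + i % S) else 0 : ℕ) : ℤ)) +
        ev (2 ^ w) (S * R) (fun i => ((if i % S = q then
          (if i < S * R - (s - q) then e (s - q + i) else 0) else 0 : ℕ) : ℤ)) +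
        ev (2 ^ w) (S * R) (fun i => ((if i % S + i / S = t then e i else 0 : ℕ) : ℤ)))
  rw [← add_assoc, ← add_assoc] at h6
  rw [← add_assoc]
  exact h6

end Vale.Agent.P181.H605
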