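import Vale.Agent.P181.H605.Lines
import Vale.Agent.P181.H605.Lines2

set_option autoImplicit false

/-!
# P181: the left tables, soundness of the moved rows
-/

namespace Vale.Agent.P181.H605

open Finset MvPolynomial Vale.Agent.P181 Vale.Agent.P181.H280 Vale.Agent.P181.H51
  Vale.Agent.P181.H788

lemma G_modEq (w : ℕ) {S R N a : ℕ} (hS : dg N a < S) (hRS : R ≤ S) (x y z : ℕ) :
    G w S N a x y z ≡ ev (2 ^ w) (S * R) (flat S (fun e2 e3 => cf N a e2 e3 x y z))
      [ZMOD 2 ^ (w * (S * R))] := by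
  have h1 : RowMod w S R (G w S N a x y z % 2 ^ (w * (S * R))).toNat
      (fun e2 e3 => cf N a e2 e3 x y z) := by
    refine ⟨S, hRS, ?_⟩
    rw [Int.toNat_of_nonneg (Int.emod_nonneg _ (by positivity)), ← G_eq_sum w hS]
    exact Int.mod_modEq _ _
  have h2 := row_trunc h1
  rw [Int.toNat_of_nonneg (Int.emod_nonneg _ (by positivity))] at h2
  exact (Int.mod_modEq _ _).symm.trans h2

lemma row_of_modEq {w S R N a : ℕ} (hS : dg N a < S) (hRS : R ≤ S) {x y z u : ℕ}
    (hu : u < 2 ^ (w * (S * R)))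
    (h : (u : ℤ) ≡ ev (2 ^ w) (S * R) (flat S (fun e2 e3 => cf N a e2 e3 x y z))
      [ZMOD 2 ^ (w * (S * R))]) : (u : ℤ) = G w S N a x y z % 2 ^ (w * (S * R)) := by
  have h1 : (u : ℤ) % 2 ^ (w * (S * R)) = G w S N a x y z % 2 ^ (w * (S * R)) :=
    h.trans (G_modEq w hS hRS x y z).symm
  rw [← h1, Int.emod_eq_of_lt (Int.natCast_nonneg u) (by exact_mod_cast hu)]

/-- **The moved row.** -/
theorem mv_row {w S R N a v q B x y z r D F : ℕ} (hq : q + N < 6) (hv : v + 1 ≤ w)
    (hS : dg N a < S) (hRS : R ≤ S) (hx : x ≠ q) (hy : y ≠ q) (hz : z ≠ q) (hqz : q ≤ z)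
    (hzR : z < R) (hF : (F : ℤ) = G w S N a x y q % 2 ^ (w * (S * R)))
    (hb : ∀ e2 < S, ∀ e3 < R, |cf N a e2 e3 x y q| ≤ B) (hB : B < 2 ^ v) (hD : D = dg N a)
    (hr : r = x + y + z) :
    (LB.mv w S R (w * (S * R)) v D q z r F : ℤ) = G w S N a x y z % 2 ^ (w * (S * R)) := by
  have hS1 : 1 < S := by unfold dg at hS; omega
  have hmv : LB.mv w S R (w * (S * R)) v D q z r F =
      LB.mvU w S R (w * (S * R)) v q z (D - r - q) (LB.up w (w * (S * R)) (S * R) v F) := by
    unfold LB.mv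
    rw [H51.fc_eq]
    rfl
  rw [hmv]
  apply row_of_modEq hS hRS (Nat.mod_lt _ (by positivity))
  have hF' : (F : ℤ) ≡ ev (2 ^ w) (S * R) (flat S (fun e2 e3 => cf N a e2 e3 x y q))
      [ZMOD 2 ^ (w * (S * R))] := by
    rw [hF]
    exact (Int.mod_modEq _ _).trans (G_modEq w hS hRS x y q)
  refine (mvU_sound hv hS1 hb hB hF' hqz hzR (by omega) (t := D - r - q) (by omega)).trans ?_
  have h1 : (fun e2 e3 => -((if e3 = q then cf N a e2 z x y q else 0) +
        (if e2 = q then cf N a z e3 x y q else 0) +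
        (if e2 + e3 = D - r - q then cf N a e2 e3 x y q else 0))) =
      (fun e2 e3 => cf N a e2 e3 x y z) := by
    funext e2 e3
    rw [cf_move hq hx hy hz (e2 := e2) (e3 := e3)]
    congr 2
    by_cases hle : x + y + z + q ≤ dg N a
    · rw [if_congr (show e2 + e3 = D - r - q ↔ x + y + z + e2 + e3 + q = dg N a by omega) rfl rfl]
    · rw [if_neg (show ¬ (x + y + z + e2 + e3 + q = dg N a) by omega)]
      split_ifs with h2
      · have h3 : e2 = e3 := by omega
        rw [h3]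
        exact cf_z23 N a e3 x y q
      · rfl
  rw [h1]

/-- The same for the middle coordinate. -/
theorem mv_row2 {w S R N a v q B x y z r D F : ℕ} (hq : q + N < 6) (hv : v + 1 ≤ w)
    (hS : dg N a < S) (hRS : R ≤ S) (hx : x ≠ q) (hy : y ≠ q) (hz : z ≠ q) (hqy : q ≤ y)
    (hyR : y < R) (hF : (F : ℤ) = G w S N a x q z % 2 ^ (w * (S * R)))
    (hb : ∀ e2 < S, ∀ e3 < R, |cf N a e2 e3 x q z| ≤ B) (hB : B < 2 ^ v) (hD : D = dg N a)
    (hr : r = x + y + z) :
    (LB.mv w S R (w * (S * R)) v D q y r F : ℤ) = G w S N a x y z % 2 ^ (w * (S * R)) := by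
  have hS1 : 1 < S := by unfold dg at hS; omega
  have hmv : LB.mv w S R (w * (S * R)) v D q y r F =
      LB.mvU w S R (w * (S * R)) v q y (D - r - q) (LB.up w (w * (S * R)) (S * R) v F) := by
    unfold LB.mv
    rw [H51.fc_eq]
    rfl
  rw [hmv]
  apply row_of_modEq hS hRS (Nat.mod_lt _ (by positivity))
  have hF' : (F : ℤ) ≡ ev (2 ^ w) (S * R) (flat S (fun e2 e3 => cf N a e2 e3 x q z))
      [ZMOD 2 ^ (w * (S * R))] := by
    rw [hF]
    exact (Int.mod_modEq _ _).trans (G_modEq w hS hRS x q z)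
  refine (mvU_sound hv hS1 hb hB hF' hqy hyR (by omega) (t := D - r - q) (by omega)).trans ?_
  have h1 : (fun e2 e3 => -((if e3 = q then cf N a e2 y x q z else 0) +
        (if e2 = q then cf N a y e3 x q z else 0) +
        (if e2 + e3 = D - r - q then cf N a e2 e3 x q z else 0))) =
      (fun e2 e3 => cf N a e2 e3 x y z) := by
    funext e2 e3
    rw [cf_move2 hq hx hy hz (e2 := e2) (e3 := e3)]
    congr 2
    by_cases hle : x + y + z + q ≤ dg N a
    · rw [if_congr (show e2 + e3 = D - r - q ↔ x + y + z + e2 + e3 + q = dg N a by omega) rfl rfl]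
    · rw [if_neg (show ¬ (x + y + z + e2 + e3 + q = dg N a) by omega)]
      split_ifs with h2
      · have h3 : e2 = e3 := by omega
        rw [h3]
        exact cf_z23 N a e3 x q z
      · rfl
  rw [h1]

/-- The bound of a moved row. -/
theorem cf_abs_move {N a q B S R x y z : ℕ} (hq : q + N < 6) (hx : x ≠ q) (hy : y ≠ q)
    (hz : z ≠ q) (hzS : z < S) (hzR : z < R)
    (hb : ∀ e2 < S, ∀ e3 < R, |cf N a e2 e3 x y q| ≤ B) :
    ∀ e2 < S, ∀ e3 < R, |cf N a e2 e3 x y z| ≤ B := by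
  intro e2 h2 e3 h3
  by_cases c3 : e3 = q
  · subst c3
    have h4 := hb e2 h2 z hzR
    rw [cf_sw3, abs_neg] at h4
    exact h4
  · by_cases c2 : e2 = q
    · subst c2
      have h4 := hb z hzS e3 h3
      rw [cf_sw2, abs_neg] at h4
      exact h4
    · by_cases c1 : x + y + z + e2 + e3 + q = dg N a
      · have h4 := hb e2 h2 e3 h3
        rw [cf_sw1 N a e2 e3 x y z q c1, abs_neg] at h4
        exact h4
      · rw [cf_move hq hx hy hz, if_neg c3, if_neg c2, if_neg c1]
        simp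

theorem cf_abs_move2 {N a q B S R x y z : ℕ} (hq : q + N < 6) (hx : x ≠ q) (hy : y ≠ q)
    (hz : z ≠ q) (hyS : y < S) (hyR : y < R)
    (hb : ∀ e2 < S, ∀ e3 < R, |cf N a e2 e3 x q z| ≤ B) :
    ∀ e2 < S, ∀ e3 < R, |cf N a e2 e3 x y z| ≤ B := by
  have h1 := cf_abs_move (a := a) (B := B) hq hx hz hy hyS hyR (fun e2 h2 e3 h3 => by
    have h4 := hb e2 h2 e3 h3
    rw [cf_swap2, abs_neg] at h4
    exact h4)
  intro e2 h2 e3 h3
  have h4 := h1 e2 h2 e3 h3
  rw [cf_swap2, abs_neg] at h4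
  exact h4

/-! The regions. -/

/-- rows `z ≤ m`, `y ≤ l` -/
def RgL (X C l m : ℕ) : ℕ → ℕ → ℕ → Prop := fun x y z => y ≤ l ∧ z ≤ m ∧ 4 * x + y + z ≤ C ∧ x < X

lemma RgL_down (X C l m : ℕ) : Down (RgL X C l m) := by
  intro x y z x' y' z' h hx hy hz
  unfold RgL at h ⊢
  omega

lemma SOn.mono {w S R N a : ℕ} {Rg Rg' : ℕ → ℕ → ℕ → Prop} {F : Tb} (h : SOn w S R N a Rg F)
    (hR : ∀ x y z, Rg' x y z → Rg x y z) : SOn w S R N a Rg' F :=
  fun x y z h1 h2 h3 => h x y z h1 h2 (hR x y z h3)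

lemma BOn.mono {S R N a B : ℕ} {Rg Rg' : ℕ → ℕ → ℕ → Prop} (h : BOn S R N a Rg B)
    (hR : ∀ x y z, Rg' x y z → Rg x y z) : BOn S R N a Rg' B :=
  fun x y z h1 h2 h3 => h x y z h1 h2 (hR x y z h3)

/-- From `z = 0` to all `z ≤ m`. -/
theorem ez_step {w S R N a v X C l m B D : ℕ} {e : ℕ → ℕ → ℕ} (hN : N < 6) (hv : v + 1 ≤ w)
    (hS : dg N a < S) (hRS : R ≤ S) (hmR : m < R) (hD : D = dg N a)
    (hs : SOn w S R N a (RgL X C l 0) (fun x y _ => e x y))
    (hb : BOn S R N a (RgL X C l 0) B) (hB : B < 2 ^ v) :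
    SOn w S R N a (RgL X C l m) (LB.ez w S R (w * (S * R)) v D e) ∧
      BOn S R N a (RgL X C l m) B := by
  constructor
  · intro x y z hzy hyx hR
    unfold RgL at hR
    have h0 := hs x y 0 (by omega) hyx (by unfold RgL; omega)
    rcases Nat.eq_zero_or_pos z with h | h
    · subst h
      exact h0
    · obtain ⟨k, hk⟩ : ∃ k, z = k + 1 := ⟨z - 1, by omega⟩
      have h1 : LB.ez w S R (w * (S * R)) v D e x y z =
          LB.mv w S R (w * (S * R)) v D 0 z (x + y + z) (e x y) := by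
        rw [hk]
        rfl
      rw [h1]
      exact mv_row (by omega) hv hS hRS (by omega) (by omega) (by omega) (by omega) (by omega) h0
        (fun e2 h2 e3 h3 => hb x y 0 (by omega) hyx (by unfold RgL; omega) e2 h2 e3 h3) hB hD rfl
  · intro x y z hzy hyx hR
    unfold RgL at hR
    rcases Nat.eq_zero_or_pos z with h | h
    · subst h
      exact hb x y 0 hzy hyx (by unfold RgL; omega)
    · exact cf_abs_move (q := 0) (by omega) (by omega) (by omega) (by omega) (by omega) (by omega)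
        (fun e2 h2 e3 h3 => hb x y 0 (by omega) hyx (by unfold RgL; omega) e2 h2 e3 h3)

/-- From `(x, 1, 0)` to all `(x, y, 0)`. -/
theorem ey_step {w S R N a v X C l B D : ℕ} {d : ℕ → ℕ} (hN : N < 5) (hv : v + 1 ≤ w)
    (hS : dg N a < S) (hRS : R ≤ S) (hCR : C < 5 * R) (hD : D = dg N a)
    (hs : SOn w S R N a (RgL X C 1 0) (fun x _ _ => d x))
    (hb : BOn S R N a (RgL X C 1 0) B) (hB : B < 2 ^ v) :
    SOn w S R N a (RgL X C l 0) (fun x y _ => LB.ey w S R (w * (S * R)) v D d x y) ∧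
      BOn S R N a (RgL X C l 0) B := by
  constructor
  · intro x y z hzy hyx hR
    unfold RgL at hR
    have hz0 : z = 0 := by omega
    subst hz0
    have h0 := hs x 1 0 (by omega) (by omega) (by unfold RgL; omega)
    rcases Nat.lt_or_ge 1 y with h | h
    · obtain ⟨k, hk⟩ : ∃ k, y = k + 2 := ⟨y - 2, by omega⟩
      have h1 : LB.ey w S R (w * (S * R)) v D d x y =
          LB.mv w S R (w * (S * R)) v D 1 y (x + y) (d x) := by
        rw [hk]
        rfl
      change (LB.ey w S R (w * (S * R)) v D d x y : ℤ) = _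
      rw [h1]
      exact mv_row2 (by omega) hv hS hRS (by omega) (by omega) (by omega) (by omega) (by omega) h0
        (fun e2 h2 e3 h3 => hb x 1 0 (by omega) (by omega) (by unfold RgL; omega) e2 h2 e3 h3)
        hB hD rfl
    · have hy1 : y = 1 := by omega
      subst hy1
      exact h0
  · intro x y z hzy hyx hR
    unfold RgL at hR
    have hz0 : z = 0 := by omega
    subst hz0
    rcases Nat.lt_or_ge 1 y with h | h
    · exact cf_abs_move2 (q := 1) (by omega) (by omega) (by omega) (by omega) (by omega) (by omega)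
        (fun e2 h2 e3 h3 => hb x 1 0 (by omega) (by omega) (by unfold RgL; omega) e2 h2 e3 h3)
    · have hy1 : y = 1 := by omega
      subst hy1
      exact hb x 1 0 hzy hyx (by unfold RgL; omega)

end Vale.Agent.P181.H605
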