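import Mathlib

set_option autoImplicit false

/-!
# P181: Newton's identity for complete homogeneous sums, by counting
-/

namespace Vale.Agent.P181.H605

open Finset

variable {L : Type*} [Fintype L] [DecidableEq L] {R : Type*} [CommRing R]

/-- The complete homogeneous sum `h_N (f)`. -/
def hs (f : L → R) (N : ℕ) : R := ∑ s : Sym L N, (s.1.map f).prod

lemma hs_zero (f : L → R) : hs f 0 = 1 := by
  unfold hs
  rw [Fintype.sum_eq_single (Sym.nil : Sym L 0)]
  · rfl
  · intro s hs
    exact absurd (Sym.eq_nil_of_card_zero s) hs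

/-- the multisets which contain `c` at least `k` times -/
lemma sum_count_ge (f : L → R) (N k : ℕ) (hk : k ≤ N) (c : L) :
    ∑ s : Sym L N, (if k ≤ s.1.count c then (s.1.map f).prod else 0) =
      f c ^ k * hs f (N - k) := by
  classical
  rw [← Finset.sum_filter, hs, Finset.mul_sum]
  have hle : ∀ s : Sym L N, s ∈ Finset.univ.filter (fun s : Sym L N => k ≤ s.1.count c) →
      Multiset.replicate k c ≤ s.1 := fun s hs =>
    Multiset.le_count_iff_replicate_le.1 (Finset.mem_filter.1 hs).2
  refine Finset.sum_bij'
    (i := fun s hs => (⟨s.1 - Multiset.replicate k c, by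
      rw [Multiset.card_sub (hle s hs), s.2, Multiset.card_replicate]⟩ : Sym L (N - k)))
    (j := fun t _ => (⟨t.1 + Multiset.replicate k c, by
      rw [Multiset.card_add, t.2, Multiset.card_replicate]; omega⟩ : Sym L N)) ?_ ?_ ?_ ?_ ?_
  · intro s hs
    exact Finset.mem_univ _
  · intro t _
    refine Finset.mem_filter.2 ⟨Finset.mem_univ _, ?_⟩
    change k ≤ Multiset.count c (t.1 + Multiset.replicate k c)
    rw [Multiset.count_add, Multiset.count_replicate_self]
    omega
  · intro s hs
    apply Subtype.ext
    exact tsub_add_cancel_of_le (hle s hs)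
  · intro t _
    apply Subtype.ext
    exact add_tsub_cancel_right _ _
  · intro s hs
    have h1 : s.1 = Multiset.replicate k c + (s.1 - Multiset.replicate k c) :=
      (add_tsub_cancel_of_le (hle s hs)).symm
    change (s.1.map f).prod = _ * ((s.1 - Multiset.replicate k c).map f).prod
    conv_lhs => rw [h1]
    rw [Multiset.map_add, Multiset.prod_add, Multiset.map_replicate, Multiset.prod_replicate]

/-- **Newton's identity.** -/
theorem newton (f : L → R) (N : ℕ) :
    (N : R) * hs f N = ∑ k ∈ range N, (∑ c, f c ^ (k + 1)) * hs f (N - (k + 1)) := by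
  classical
  have h1 : ∀ k ∈ range N, (∑ c, f c ^ (k + 1)) * hs f (N - (k + 1)) =
      ∑ c, ∑ s : Sym L N, (if k + 1 ≤ s.1.count c then (s.1.map f).prod else 0) := by
    intro k hk
    rw [Finset.sum_mul]
    refine Finset.sum_congr rfl fun c _ => ?_
    exact (sum_count_ge f N (k + 1) (Finset.mem_range.1 hk) c).symm
  rw [Finset.sum_congr rfl h1, Finset.sum_comm]
  have h2 : ∀ c : L, ∑ k ∈ range N, ∑ s : Sym L N,
      (if k + 1 ≤ s.1.count c then (s.1.map f).prod else 0) =
      ∑ s : Sym L N, (s.1.count c : R) * (s.1.map f).prod := by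
    intro c
    rw [Finset.sum_comm]
    refine Finset.sum_congr rfl fun s _ => ?_
    rw [← Finset.sum_filter, Finset.sum_const, nsmul_eq_mul]
    congr 2
    have h3 : (range N).filter (fun k => k + 1 ≤ s.1.count c) = range (s.1.count c) := by
      ext k
      have h4 : s.1.count c ≤ N := by
        have := Multiset.count_le_card c s.1
        rwa [s.2] at this
      simp only [Finset.mem_filter, Finset.mem_range]
      omega
    rw [h3, Finset.card_range]
  rw [Finset.sum_congr rfl (fun c _ => h2 c), Finset.sum_comm, hs, Finset.mul_sum]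
  refine Finset.sum_congr rfl fun s _ => ?_
  rw [← Finset.sum_mul]
  congr 1
  have h5 : ∑ c, s.1.count c = N := by
    refine Eq.trans ?_ ((Multiset.toFinset_sum_count_eq s.1).trans s.2)
    refine (Finset.sum_subset (Finset.subset_univ _) fun c _ hc => ?_).symm
    exact Multiset.count_eq_zero.2 (fun h => hc (Multiset.mem_toFinset.2 h))
  rw [← Nat.cast_sum, h5]

end Vale.Agent.P181.H605
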