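import Vale.Agent.P181.H530.Torus2
import Vale.Agent.P181.H605.Newton

set_option autoImplicit false

/-!
# P181: the generating polynomial of the weight multiplicities and its recursion
-/

namespace Vale.Agent.P181.H605

open Finset MvPolynomial Vale.Agent.P181 Vale.Agent.P181.H530.Torus

/-- The letters: exponent vectors of total `a`. -/
abbrev Let (n a : ℕ) : Type := {v : Fin n → ℕ // v ∈ piAntidiag (univ : Finset (Fin n)) a}

lemma sum_let {n a : ℕ} (v : Let n a) : ∑ i, v.1 i = a := (mem_piAntidiag.1 v.2).1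

/-- exponent vectors as finsupps -/
noncomputable abbrev fs {n : ℕ} (v : Fin n → ℕ) : Fin n →₀ ℕ := Finsupp.equivFunOnFinite.symm v

lemma fs_zero {n : ℕ} : fs (0 : Fin n → ℕ) = 0 := by
  ext i; rfl

lemma fs_add {n : ℕ} (v w : Fin n → ℕ) : fs (v + w) = fs v + fs w := by
  ext i; rfl

lemma fs_smul {n : ℕ} (k : ℕ) (v : Fin n → ℕ) : fs (k • v) = k • fs v := by
  ext i; rfl

/-- `h_a (x^k)`. -/
noncomputable def hk (n a k : ℕ) : MvPolynomial (Fin n) ℤ :=
  ∑ v : Let n a, monomial (fs v.1) (1 : ℤ) ^ k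

/-- The generating polynomial of the weight multiplicities of `Sym^N(Sym^a ℂ^n)`. -/
noncomputable def Hgen (n N a : ℕ) : MvPolynomial (Fin n) ℤ :=
  hs (fun v : Let n a => monomial (fs v.1) (1 : ℤ)) N

theorem Hgen_zero (n a : ℕ) : Hgen n 0 a = 1 := hs_zero _

theorem Hgen_rec (n N a : ℕ) : (N : MvPolynomial (Fin n) ℤ) * Hgen n N a =
    ∑ k ∈ range N, hk n a (k + 1) * Hgen n (N - (k + 1)) a :=
  newton _ N

lemma prod_monomial {n a : ℕ} (s : Multiset (Let n a)) :
    (s.map (fun v : Let n a => monomial (fs v.1) (1 : ℤ))).prod =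
      monomial (fs (s.map Subtype.val).sum) 1 := by
  induction s using Multiset.induction_on with
  | empty =>
    rw [Multiset.map_zero, Multiset.prod_zero, Multiset.map_zero, Multiset.sum_zero, fs_zero]
    rfl
  | cons v s ih =>
    rw [Multiset.map_cons, Multiset.prod_cons, ih, monomial_mul, one_mul, Multiset.map_cons,
      Multiset.sum_cons, fs_add]

theorem coeff_Hgen (n N a : ℕ) (mu : Fin n →₀ ℕ) :
    coeff mu (Hgen n N a) = ((MS n N a (fun i => mu i)).ncard : ℤ) := by
  classical
  rw [Hgen, hs, coeff_sum]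
  have h1 : ∀ s : Sym (Let n a) N,
      coeff mu (s.1.map (fun v : Let n a => monomial (fs v.1) (1 : ℤ))).prod =
      if (s.1.map Subtype.val).sum = (fun i => mu i) then 1 else 0 := by
    intro s
    rw [prod_monomial, coeff_monomial]
    congr 1
    rw [eq_iff_iff]
    constructor
    · rintro rfl
      rfl
    · intro h
      ext i
      exact congrFun h i
  rw [Finset.sum_congr rfl (fun s _ => h1 s), Finset.sum_boole]
  congr 1
  rw [← Set.ncard_coe_finset]
  refine Set.ncard_congr (fun s _ => s.1.map Subtype.val) ?_ ?_ ?_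
  · intro s hs
    refine ⟨?_, ?_, (Finset.mem_filter.1 hs).2⟩
    · rw [Multiset.card_map]
      exact s.2
    · intro v hv
      obtain ⟨w, -, rfl⟩ := Multiset.mem_map.1 hv
      exact sum_let w
  · intro s t _ _ hst
    exact Subtype.ext (Multiset.map_injective Subtype.val_injective hst)
  · rintro m ⟨hm1, hm2, hm3⟩
    have hm4 : ∀ v ∈ m, v ∈ piAntidiag (univ : Finset (Fin n)) a := fun v hv =>
      mem_piAntidiag.2 ⟨hm2 v hv, fun i _ => Finset.mem_univ i⟩
    lift m to Multiset (Let n a) using hm4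
    refine ⟨⟨m, by rwa [Multiset.card_map] at hm1⟩, ?_, rfl⟩
    exact Finset.mem_coe.2 (Finset.mem_filter.2 ⟨Finset.mem_univ _, hm3⟩)

/-- `h_a (x^k)` is the `k`-th Frobenius twist of the complete homogeneous polynomial. -/
theorem hk_eq (n a k : ℕ) : hk n a k = expand k (hsymm (Fin n) ℤ a) := by
  classical
  have h1 := Finset.map_sym_eq_piAntidiag (univ : Finset (Fin n)) a
  rw [hk, Finset.sum_coe_sort (piAntidiag (univ : Finset (Fin n)) a)
    (fun v => monomial (fs v) (1 : ℤ) ^ k), ← h1, Finset.sum_map, hsymm, map_sum]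
  rw [Finset.sym_univ]
  refine Finset.sum_congr rfl fun s _ => ?_
  rw [map_multiset_prod, Multiset.map_map]
  have h2 : ∀ m : Multiset (Fin n), monomial (fs (fun i => m.count i)) (1 : ℤ) ^ k =
      (m.map (⇑(expand k) ∘ (X : Fin n → MvPolynomial (Fin n) ℤ))).prod := by
    intro m
    induction m using Multiset.induction_on with
    | empty =>
      rw [Multiset.map_zero, Multiset.prod_zero]
      have h3 : (fun i => Multiset.count i (0 : Multiset (Fin n))) = 0 := by
        funext i
        exact Multiset.count_zero i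
      rw [h3, fs_zero]
      exact one_pow k
    | cons c m ih =>
      rw [Multiset.map_cons, Multiset.prod_cons, ← ih, Function.comp_apply, expand_X, ← mul_pow]
      congr 1
      have h4 : fs (fun i => Multiset.count i (c ::ₘ m)) =
          Finsupp.single c 1 + fs (fun i => Multiset.count i m) := by
        ext i
        rw [Finsupp.add_apply, Finsupp.single_apply]
        change Multiset.count i (c ::ₘ m) = _ + Multiset.count i m
        rw [Multiset.count_cons, add_comm]
        congr 1
        exact if_congr eq_comm rfl rfl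
      rw [h4, X, monomial_mul, one_mul]
  exact h2 s.1

/-- the elementary expansion -/
lemma hk_apply (n a k : ℕ) : hk n a k =
    ∑ v ∈ piAntidiag (univ : Finset (Fin n)) a, ∏ i, (X i : MvPolynomial (Fin n) ℤ) ^ (k * v i) := by
  classical
  rw [hk, ← Finset.sum_coe_sort (piAntidiag (univ : Finset (Fin n)) a)]
  refine Finset.sum_congr rfl fun v _ => ?_
  rw [monomial_pow, one_pow, monomial_eq, C_1, one_mul, Finsupp.prod_fintype _ _ (fun i => pow_zero _)]
  rfl

/-- The Vandermonde product. -/
noncomputable def vdm (n : ℕ) : MvPolynomial (Fin n) ℤ :=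
  ∏ i : Fin n, ∏ j ∈ Ioi i, (X i - X j)

/-- The antisymmetric generating polynomial. -/
noncomputable def Fgen (n N a : ℕ) : MvPolynomial (Fin n) ℤ := vdm n * Hgen n N a

theorem Fgen_zero (n a : ℕ) : Fgen n 0 a = vdm n := by
  rw [Fgen, Hgen_zero, mul_one]

theorem Fgen_rec (n N a : ℕ) : (N : MvPolynomial (Fin n) ℤ) * Fgen n N a =
    ∑ k ∈ range N, hk n a (k + 1) * Fgen n (N - (k + 1)) a := by
  rw [Fgen, mul_left_comm, Hgen_rec, Finset.mul_sum]
  refine Finset.sum_congr rfl fun k _ => ?_
  rw [Fgen, mul_left_comm]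

/-! ### Symmetry and homogeneity -/

lemma hk_symm (n a k : ℕ) (σ : Equiv.Perm (Fin n)) : rename σ (hk n a k) = hk n a k := by
  rw [hk_apply, map_sum]
  have h1 : ∀ v : Fin n → ℕ, rename σ (∏ i, (X i : MvPolynomial (Fin n) ℤ) ^ (k * v i)) =
      ∏ i, (X i : MvPolynomial (Fin n) ℤ) ^ (k * v (σ.symm i)) := by
    intro v
    rw [map_prod]
    simp only [map_pow, rename_X]
    exact Fintype.prod_equiv σ _ _ (fun i => by rw [Equiv.symm_apply_apply])
  rw [Finset.sum_congr rfl (fun v _ => h1 v)]
  refine Finset.sum_bij' (fun v _ => fun i => v (σ.symm i)) (fun v _ => fun i => v (σ i)) ?_ ?_ ?_ ?_ ?_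
  · intro v hv
    rw [mem_piAntidiag] at hv ⊢
    refine ⟨?_, fun i _ => Finset.mem_univ i⟩
    rw [← hv.1]
    exact Fintype.sum_equiv σ.symm _ _ (fun i => rfl)
  · intro v hv
    rw [mem_piAntidiag] at hv ⊢
    refine ⟨?_, fun i _ => Finset.mem_univ i⟩
    rw [← hv.1]
    exact Fintype.sum_equiv σ _ _ (fun i => rfl)
  · intro v _
    funext i
    exact congrArg v (σ.symm_apply_apply i)
  · intro v _
    funext i
    exact congrArg v (σ.apply_symm_apply i)
  · intro v _
    rfl

lemma Hgen_symm (n N a : ℕ) (σ : Equiv.Perm (Fin n)) : rename σ (Hgen n N a) = Hgen n N a := by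
  induction N using Nat.strong_induction_on with
  | _ N ih =>
    rcases Nat.eq_zero_or_pos N with rfl | hN
    · rw [Hgen_zero, map_one]
    · have hN' : (N : MvPolynomial (Fin n) ℤ) ≠ 0 := Nat.cast_ne_zero.2 hN.ne'
      apply mul_left_cancel₀ hN'
      have h1 : (N : MvPolynomial (Fin n) ℤ) * rename σ (Hgen n N a) =
          rename σ ((N : MvPolynomial (Fin n) ℤ) * Hgen n N a) := by
        rw [map_mul, map_natCast]
      rw [h1, Hgen_rec, map_sum]
      refine Finset.sum_congr rfl fun k hk' => ?_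
      rw [map_mul, hk_symm, ih _ (by have := Finset.mem_range.1 hk'; omega)]

lemma MS_total' {n N a : ℕ} {mu : Fin n → ℕ} (h : (MS n N a mu).ncard ≠ 0) :
    ∑ i, mu i = N * a := by
  obtain ⟨s, hs⟩ := Set.nonempty_of_ncard_ne_zero h
  exact MS_total hs

lemma Hgen_homog (n N a : ℕ) : (Hgen n N a).IsHomogeneous (N * a) := by
  intro mu hmu
  rw [coeff_Hgen, Nat.cast_ne_zero] at hmu
  have h1 := MS_total' hmu
  rw [← h1, Finsupp.weight_apply, Finsupp.sum_fintype _ _ (fun i => by rw [zero_smul])]
  refine Finset.sum_congr rfl fun i _ => ?_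
  rw [Pi.one_apply, smul_eq_mul, mul_one]

end Vale.Agent.P181.H605
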