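import Vale.Agent.P181.H605.Rec

set_option autoImplicit false

/-!
# P181: the antisymmetric generating polynomial: coefficients, antisymmetry, a priori bound
-/

namespace Vale.Agent.P181.H605

open Finset MvPolynomial Vale.Agent.P181 Vale.Agent.P181.H280 Vale.Agent.P181.H530.Torus

lemma fs_coe {n : ℕ} (nu : Fin n →₀ ℕ) : fs (fun i => nu i) = nu := by
  ext i; rfl

/-- `delta = (n-1, ..., 1, 0)`. -/
def dl (n : ℕ) : Fin n → ℕ := fun i => n - 1 - i

lemma vdm_eq_det (n : ℕ) : vdm n =
    (Matrix.projVandermonde (1 : Fin n → MvPolynomial (Fin n) ℤ) X).det := by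
  rw [Matrix.det_projVandermonde, vdm]
  refine Finset.prod_congr rfl fun i _ => Finset.prod_congr rfl fun j _ => ?_
  rw [Pi.one_apply, Pi.one_apply, one_mul, one_mul]

/-- The expansion of the Vandermonde product. -/
theorem vdm_eq_sum (n : ℕ) : vdm n = ∑ σ : Equiv.Perm (Fin n),
    ((Equiv.Perm.sign σ : ℤ) : MvPolynomial (Fin n) ℤ) *
      monomial (fs (fun i => n - 1 - (σ i : ℕ))) 1 := by
  rw [vdm_eq_det, ← Matrix.det_transpose, Matrix.det_apply']
  refine Finset.sum_congr rfl fun σ _ => ?_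
  congr 1
  rw [monomial_eq, C_1, one_mul, Finsupp.prod_fintype _ _ (fun i => pow_zero _)]
  refine Finset.prod_congr rfl fun i _ => ?_
  rw [Matrix.transpose_apply, Matrix.projVandermonde_apply, Pi.one_apply, one_pow, one_mul]
  congr 1
  rw [Fin.val_rev]
  change n - ((σ i : ℕ) + 1) = n - 1 - (σ i : ℕ)
  omega

/-- The coefficients of the antisymmetric generating polynomial. -/
theorem coeff_Fgen (n N a : ℕ) (lam : Fin n → ℕ) :
    coeff (fs (lam + dl n)) (Fgen n N a) =
      ∑ σ : Equiv.Perm (Fin n), (Equiv.Perm.sign σ : ℤ) *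
        (if ∀ i : Fin n, (i : ℕ) ≤ lam i + σ i then
          ((MS n N a (fun i => lam i + σ i - i)).ncard : ℤ) else 0) := by
  classical
  rw [Fgen, vdm_eq_sum, Finset.sum_mul, coeff_sum]
  refine Finset.sum_congr rfl fun σ _ => ?_
  have h0 : ((Equiv.Perm.sign σ : ℤ) : MvPolynomial (Fin n) ℤ) = C (Equiv.Perm.sign σ : ℤ) := by
    simp
  rw [h0, mul_assoc, coeff_C_mul, coeff_monomial_mul', one_mul]
  congr 1
  have h1 : (fs (fun i => n - 1 - (σ i : ℕ)) ≤ fs (lam + dl n)) ↔
      ∀ i : Fin n, (i : ℕ) ≤ lam i + σ i := by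
    constructor
    · intro h i
      have h2 : n - 1 - (σ i : ℕ) ≤ lam i + (n - 1 - i) := h i
      have h3 := i.2
      have h4 := (σ i).2
      omega
    · intro h i
      have h2 := h i
      change n - 1 - (σ i : ℕ) ≤ lam i + (n - 1 - i)
      have h3 := i.2
      have h4 := (σ i).2
      omega
  refine if_ctx_congr h1 (fun h => ?_) (fun _ => rfl)
  rw [coeff_Hgen]
  congr 3
  funext i
  have h2 := h i
  change lam i + (n - 1 - i) - (n - 1 - (σ i : ℕ)) = lam i + σ i - i
  have h3 := i.2
  have h4 := (σ i).2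
  omega

/-! ### Antisymmetry -/

lemma vdm_antisymm (n : ℕ) (τ : Equiv.Perm (Fin n)) :
    rename τ (vdm n) = ((Equiv.Perm.sign τ : ℤ) : MvPolynomial (Fin n) ℤ) * vdm n := by
  rw [vdm_eq_sum, map_sum, Finset.mul_sum]
  refine Fintype.sum_equiv (Equiv.mulRight τ⁻¹) _ _ fun σ => ?_
  rw [map_mul, map_intCast, rename_monomial, Equiv.coe_mulRight, Equiv.Perm.sign_mul,
    Equiv.Perm.sign_inv, ← mul_assoc]
  congr 1
  · have h1 : (Equiv.Perm.sign τ : ℤ) * (Equiv.Perm.sign τ : ℤ) = 1 := by
      rcases Int.units_eq_one_or (Equiv.Perm.sign τ) with h | h <;> rw [h] <;> rfl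
    push_cast
    have h2 := congrArg (Int.cast : ℤ → MvPolynomial (Fin n) ℤ) h1
    push_cast at h2
    linear_combination (-((Equiv.Perm.sign σ : ℤ) : MvPolynomial (Fin n) ℤ)) * h2
  · congr 2
    ext i
    obtain ⟨j, rfl⟩ := τ.surjective i
    rw [Finsupp.mapDomain_apply τ.injective]
    change n - 1 - ((σ j : Fin n) : ℕ) = n - 1 - (((σ * τ⁻¹) (τ j) : Fin n) : ℕ)
    rw [Equiv.Perm.mul_apply, Equiv.Perm.inv_def, Equiv.symm_apply_apply]

theorem Fgen_antisymm (n N a : ℕ) (τ : Equiv.Perm (Fin n)) :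
    rename τ (Fgen n N a) = ((Equiv.Perm.sign τ : ℤ) : MvPolynomial (Fin n) ℤ) * Fgen n N a := by
  rw [Fgen, map_mul, vdm_antisymm, Hgen_symm, mul_assoc]

theorem coeff_Fgen_perm (n N a : ℕ) (τ : Equiv.Perm (Fin n)) (nu : Fin n → ℕ) :
    coeff (fs (fun i => nu (τ i))) (Fgen n N a) =
      (Equiv.Perm.sign τ : ℤ) * coeff (fs nu) (Fgen n N a) := by
  have h1 : Finsupp.mapDomain τ (fs (fun i => nu (τ i))) = fs nu := by
    ext i
    obtain ⟨j, rfl⟩ := τ.surjective i
    rw [Finsupp.mapDomain_apply τ.injective]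
    rfl
  have h0 : ((Equiv.Perm.sign τ : ℤ) : MvPolynomial (Fin n) ℤ) = C (Equiv.Perm.sign τ : ℤ) := by
    simp
  rw [← coeff_rename_mapDomain τ τ.injective, h1, Fgen_antisymm, h0, coeff_C_mul]

theorem coeff_Fgen_eq_zero (n N a : ℕ) (nu : Fin n → ℕ) (h : ¬ Function.Injective nu) :
    coeff (fs nu) (Fgen n N a) = 0 := by
  classical
  unfold Function.Injective at h
  push Not at h
  obtain ⟨i, j, h1, h2⟩ := h
  have h3 := coeff_Fgen_perm n N a (Equiv.swap i j) nu
  have h4 : (fun k => nu (Equiv.swap i j k)) = nu := by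
    funext k
    rcases eq_or_ne k i with rfl | hk
    · rw [Equiv.swap_apply_left, h1]
    · rcases eq_or_ne k j with rfl | hk2
      · rw [Equiv.swap_apply_right, h1]
      · rw [Equiv.swap_apply_of_ne_of_ne hk hk2]
  rw [h4, Equiv.Perm.sign_swap h2] at h3
  push_cast at h3
  omega

/-- The Weyl formula for the plethysm multiplicities (helper177's theorem). -/
def Weyl (n N a : ℕ) : Prop := ∀ lam : Fin n → ℕ, Antitone lam →
  (plethMult N a n lam : ℤ) = ∑ σ : Equiv.Perm (Fin n), (Equiv.Perm.sign σ : ℤ) *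
        (if ∀ i : Fin n, (i : ℕ) ≤ lam i + σ i then
          ((MS n N a (fun i => lam i + σ i - i)).ncard : ℤ) else 0)

theorem coeff_Fgen_of_weyl {n N a : ℕ} (hW : Weyl n N a) (lam : Fin n → ℕ) (hlam : Antitone lam) :
    coeff (fs (lam + dl n)) (Fgen n N a) = (plethMult N a n lam : ℤ) := by
  rw [coeff_Fgen, hW lam hlam]

/-! ### The a priori bound -/

lemma ncard_MS_le (n N a : ℕ) (mu : Fin n → ℕ) :
    (MS n N a mu).ncard ≤ Fintype.card (Sym (Let n a) N) := by
  classical
  have h1 := coeff_Hgen n N a (fs mu)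
  have h2 : ((MS n N a mu).ncard : ℤ) ≤ (Fintype.card (Sym (Let n a) N) : ℤ) := by
    have h3 : ((MS n N a mu).ncard : ℤ) = coeff (fs mu) (Hgen n N a) := h1.symm
    rw [h3, Hgen, hs, coeff_sum]
    have h4 : ∀ s : Sym (Let n a) N,
        coeff (fs mu) (s.1.map (fun v : Let n a => monomial (fs v.1) (1 : ℤ))).prod ≤ 1 := by
      intro s
      rw [prod_monomial, coeff_monomial]
      split_ifs <;> norm_num
    refine (Finset.sum_le_sum fun s _ => h4 s).trans ?_
    rw [Finset.sum_const, Finset.card_univ, nsmul_eq_mul, mul_one]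
  exact_mod_cast h2

lemma card_let (n a : ℕ) : Fintype.card (Let n a) = (n + a - 1).choose a := by
  classical
  rw [Fintype.card_coe]
  have h1 := Finset.map_sym_eq_piAntidiag (univ : Finset (Fin n)) a
  rw [← h1, Finset.card_map, Finset.sym_univ, Finset.card_univ, Sym.card_sym_eq_choose,
    Fintype.card_fin]

lemma card_sym_let (n N a : ℕ) : Fintype.card (Sym (Let n a) N) =
    ((n + a - 1).choose a + N - 1).choose N := by
  classical
  rw [Sym.card_sym_eq_choose, card_let]

theorem natAbs_coeff_Fgen_le {n N a : ℕ} (hW : Weyl n N a) (nu : Fin n →₀ ℕ) :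
    (coeff nu (Fgen n N a)).natAbs ≤ ((n + a - 1).choose a + N - 1).choose N := by
  classical
  by_cases hinj : Function.Injective (fun i => nu i)
  · -- sort decreasingly
    let f : Fin n → ℕᵒᵈ := fun i => OrderDual.toDual (nu i)
    let τ := Tuple.sort f
    have hmono : Monotone (f ∘ τ) := Tuple.monotone_sort f
    have hstrict : ∀ i j : Fin n, i < j → nu (τ j) < nu (τ i) := by
      intro i j hij
      have h1 : f (τ i) ≤ f (τ j) := hmono hij.le
      have h2 : nu (τ j) ≤ nu (τ i) := h1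
      exact lt_of_le_of_ne h2 (fun h => hij.ne' (τ.injective (hinj h)))
    -- the partition
    have hlow : ∀ k : ℕ, ∀ i : Fin n, n - 1 - (i : ℕ) = k → k ≤ nu (τ i) := by
      intro k
      induction k with
      | zero => intro i _; exact Nat.zero_le _
      | succ k ih =>
        intro i hi
        have h3 : (i : ℕ) + 1 < n := by omega
        have h4 := ih ⟨i + 1, h3⟩ (by change n - 1 - ((i : ℕ) + 1) = k; omega)
        have h5 := hstrict i ⟨i + 1, h3⟩ (by rw [Fin.lt_def]; exact Nat.lt_succ_self _)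
        omega
    let lam : Fin n → ℕ := fun i => nu (τ i) - (n - 1 - i)
    have hsum : lam + dl n = fun i => nu (τ i) := by
      funext i
      have := hlow _ i rfl
      change nu (τ i) - (n - 1 - i) + (n - 1 - i) = nu (τ i)
      omega
    have hanti : Antitone lam := by
      have hstep : ∀ d : ℕ, ∀ i j : Fin n, (j : ℕ) = i + d → nu (τ j) + d ≤ nu (τ i) := by
        intro d
        induction d with
        | zero =>
          intro i j hij
          have : i = j := Fin.ext (by omega)
          subst this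
          omega
        | succ d ih =>
          intro i j hij
          have h3 : (i : ℕ) + d < n := by have := j.2; omega
          have h4 := ih i ⟨i + d, h3⟩ rfl
          have h5 := hstrict ⟨i + d, h3⟩ j (by rw [Fin.lt_def]; change (i : ℕ) + d < j; omega)
          omega
      intro i j hij
      change nu (τ j) - (n - 1 - j) ≤ nu (τ i) - (n - 1 - i)
      have h3 : (i : ℕ) ≤ j := hij
      have h4 := hstep ((j : ℕ) - i) i j (by omega)
      have h5 := hlow _ j rfl
      have h6 := hlow _ i rfl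
      have h7 := j.2
      omega
    have h1 := coeff_Fgen_perm n N a τ (fun i => nu i)
    have h2 := coeff_Fgen_of_weyl hW lam hanti
    rw [hsum] at h2
    have h3 : plethMult N a n lam ≤ ((n + a - 1).choose a + N - 1).choose N := by
      rw [← card_sym_let]
      exact (plethMult_le_ncard n N a lam).trans (ncard_MS_le n N a lam)
    have h4 : coeff nu (Fgen n N a) = coeff (fs (fun i => nu i)) (Fgen n N a) := by
      rw [fs_coe]
    have h5 : (coeff (fs (fun i => nu (τ i))) (Fgen n N a)).natAbs =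
        (coeff (fs (fun i => nu i)) (Fgen n N a)).natAbs := by
      rw [h1, Int.natAbs_mul]
      rcases Int.units_eq_one_or (Equiv.Perm.sign τ) with h | h <;> rw [h] <;> simp
    rw [h4, ← h5, h2]
    simpa using h3
  · have h1 := coeff_Fgen_eq_zero n N a (fun i => nu i) hinj
    have h4 : coeff nu (Fgen n N a) = coeff (fs (fun i => nu i)) (Fgen n N a) := by
      rw [fs_coe]
    rw [h4, h1]
    exact Nat.zero_le _

/-! ### Homogeneity -/

lemma vdm_homog (n : ℕ) : (vdm n).IsHomogeneous (n * (n - 1) / 2) := by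
  rw [vdm_eq_sum]
  apply IsHomogeneous.sum
  intro σ _
  have h0 : ((Equiv.Perm.sign σ : ℤ) : MvPolynomial (Fin n) ℤ) = C (Equiv.Perm.sign σ : ℤ) := by
    simp
  rw [h0, C_mul_monomial]
  apply isHomogeneous_monomial
  rw [Finsupp.degree_eq_sum]
  change ∑ i : Fin n, (n - 1 - (σ i : ℕ)) = _
  rw [Equiv.sum_comp σ (fun i : Fin n => n - 1 - (i : ℕ)), Fin.sum_univ_eq_sum_range
    (fun i => n - 1 - i) n, Finset.sum_range_reflect (fun i => i) n, Finset.sum_range_id]

theorem Fgen_homog (n N a : ℕ) :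
    (Fgen n N a).IsHomogeneous (n * (n - 1) / 2 + N * a) :=
  (vdm_homog n).mul (Hgen_homog n N a)

end Vale.Agent.P181.H605
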