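import Vale.Agent.P181.H605.Rec2

set_option autoImplicit false

/-!
# P181: rows of a polynomial in six variables

`x₁ = 1`, `x₂ = 2 ^ w`, `x₃ = 2 ^ (w S)`; the rows are the coefficients in the last three variables.
-/

namespace Vale.Agent.P181.H605

open Finset MvPolynomial

/-- The substitution. -/
noncomputable def phi (w S : ℕ) : MvPolynomial (Fin 6) ℤ →+* MvPolynomial (Fin 3) ℤ :=
  eval₂Hom C ![1, C (2 ^ w), C (2 ^ (w * S)), X 0, X 1, X 2]

/-- The rows. -/
noncomputable def row (w S : ℕ) (P : MvPolynomial (Fin 6) ℤ) (x y z : ℕ) : ℤ :=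
  coeff (fs ![x, y, z]) (phi w S P)

variable (w S : ℕ)

lemma row_add (P Q : MvPolynomial (Fin 6) ℤ) (x y z : ℕ) :
    row w S (P + Q) x y z = row w S P x y z + row w S Q x y z := by
  rw [row, map_add, coeff_add]; rfl

lemma row_sum {ι : Type*} (s : Finset ι) (P : ι → MvPolynomial (Fin 6) ℤ) (x y z : ℕ) :
    row w S (∑ i ∈ s, P i) x y z = ∑ i ∈ s, row w S (P i) x y z := by
  rw [row, map_sum, coeff_sum]; rfl

lemma row_natCast_mul (c : ℕ) (P : MvPolynomial (Fin 6) ℤ) (x y z : ℕ) :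
    row w S ((c : MvPolynomial (Fin 6) ℤ) * P) x y z = c * row w S P x y z := by
  rw [row, map_mul, map_natCast, ← map_natCast (C : ℤ →+* MvPolynomial (Fin 3) ℤ), coeff_C_mul]
  rfl

lemma row_intCast_mul (c : ℤ) (P : MvPolynomial (Fin 6) ℤ) (x y z : ℕ) :
    row w S ((c : MvPolynomial (Fin 6) ℤ) * P) x y z = c * row w S P x y z := by
  rw [row, map_mul, map_intCast, ← map_intCast (C : ℤ →+* MvPolynomial (Fin 3) ℤ), coeff_C_mul]
  rfl

lemma phi_monomial (m : Fin 6 →₀ ℕ) (r : ℤ) : phi w S (monomial m r) =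
    monomial (fs ![m 3, m 4, m 5]) (r * 2 ^ (w * (m 1 + S * m 2))) := by
  rw [phi, eval₂Hom_monomial, Finsupp.prod_fintype _ _ (fun i => pow_zero _)]
  rw [monomial_eq, Finsupp.prod_fintype _ _ (fun i => pow_zero _)]
  simp only [Fin.prod_univ_six, Fin.prod_univ_three]
  have h1 : (C (r * 2 ^ (w * (m 1 + S * m 2))) : MvPolynomial (Fin 3) ℤ) =
      C r * (C (2 ^ w) ^ m 1 * C (2 ^ (w * S)) ^ m 2) := by
    rw [← C_pow, ← C_pow, ← C_mul, ← C_mul]
    congr 2
    rw [← pow_mul, ← pow_mul, ← pow_add]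
    congr 1
    ring
  rw [h1]
  simp only [Matrix.cons_val_zero, Matrix.cons_val_one, Matrix.cons_val, one_pow, one_mul]
  simp only [Finsupp.equivFunOnFinite_symm_apply_apply, Matrix.cons_val_zero, Matrix.cons_val_one,
    Matrix.cons_val]
  ring

lemma fs3_inj {a b c x y z : ℕ} : fs ![a, b, c] = fs ![x, y, z] ↔ a = x ∧ b = y ∧ c = z := by
  constructor
  · intro h
    have h1 := DFunLike.congr_fun h
    exact ⟨h1 0, h1 1, h1 2⟩
  · rintro ⟨rfl, rfl, rfl⟩
    rfl

lemma row_monomial (m : Fin 6 →₀ ℕ) (r : ℤ) (x y z : ℕ) : row w S (monomial m r) x y z =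
    if m 3 = x ∧ m 4 = y ∧ m 5 = z then r * 2 ^ (w * (m 1 + S * m 2)) else 0 := by
  rw [row, phi_monomial, coeff_monomial]
  exact if_congr fs3_inj rfl rfl

/-- The rows of a homogeneous polynomial. -/
theorem row_eq_sum {P : MvPolynomial (Fin 6) ℤ} {D : ℕ} (hP : P.IsHomogeneous D) (B : ℕ)
    (hB : D < B) (x y z : ℕ) : row w S P x y z = ∑ e3 ∈ range B, ∑ e2 ∈ range B,
      (if x + y + z + e2 + e3 ≤ D then
        coeff (fs ![D - (x + y + z + e2 + e3), e2, e3, x, y, z]) P else 0) *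
        2 ^ (w * (e2 + S * e3)) := by
  classical
  have h0 : row w S P x y z = ∑ m ∈ P.support.filter (fun m => m 3 = x ∧ m 4 = y ∧ m 5 = z),
      coeff m P * 2 ^ (w * (m 1 + S * m 2)) := by
    conv_lhs => rw [P.as_sum]
    rw [row_sum, Finset.sum_filter]
    exact Finset.sum_congr rfl fun m _ => row_monomial w S m _ x y z
  rw [h0, ← Finset.sum_product']
  let mu : ℕ × ℕ → (Fin 6 →₀ ℕ) := fun p => fs ![D - (x + y + z + p.2 + p.1), p.2, p.1, x, y, z]
  have hdeg : ∀ m ∈ P.support, m 0 + m 1 + m 2 + m 3 + m 4 + m 5 = D := by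
    intro m hm
    have h1 := hP (MvPolynomial.mem_support_iff.1 hm)
    rw [Finsupp.weight_apply, Finsupp.sum_fintype _ _ (fun i => by rw [zero_smul]),
      Fin.sum_univ_six] at h1
    simpa using h1
  have h2 : ∀ p : ℕ × ℕ, (if x + y + z + p.2 + p.1 ≤ D then
        coeff (fs ![D - (x + y + z + p.2 + p.1), p.2, p.1, x, y, z]) P else 0) *
        2 ^ (w * (p.2 + S * p.1)) =
      if x + y + z + p.2 + p.1 ≤ D then coeff (mu p) P * 2 ^ (w * (mu p 1 + S * mu p 2)) else 0 := by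
    intro p
    split_ifs
    · rfl
    · rw [zero_mul]
  rw [Finset.sum_congr rfl (fun p _ => h2 p), ← Finset.sum_filter]
  have hinj : Set.InjOn mu ((((range B) ×ˢ (range B)).filter
      (fun p : ℕ × ℕ => x + y + z + p.2 + p.1 ≤ D) : Finset (ℕ × ℕ)) : Set (ℕ × ℕ)) := by
    intro p _ q _ hpq
    have h3 := DFunLike.congr_fun hpq
    exact Prod.ext (h3 2) (h3 1)
  rw [← Finset.sum_image (f := fun m : Fin 6 →₀ ℕ => coeff m P * 2 ^ (w * (m 1 + S * m 2))) hinj]
  apply Finset.sum_subset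
  · intro m hm
    rw [Finset.mem_filter] at hm
    obtain ⟨hm, h3, h4, h5⟩ := hm
    have h6 := hdeg m hm
    rw [Finset.mem_image]
    refine ⟨(m 2, m 1), ?_, ?_⟩
    · rw [Finset.mem_filter, Finset.mem_product, Finset.mem_range, Finset.mem_range]
      refine ⟨⟨?_, ?_⟩, ?_⟩
      · change m 2 < B; omega
      · change m 1 < B; omega
      · change x + y + z + m 1 + m 2 ≤ D; omega
    · ext i
      fin_cases i
      · change D - (x + y + z + m 1 + m 2) = m 0
        omega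
      · rfl
      · rfl
      · exact h3.symm
      · exact h4.symm
      · exact h5.symm
  · intro m hm hm2
    rw [Finset.mem_image] at hm
    obtain ⟨p, _, rfl⟩ := hm
    have h3 : mu p ∉ P.support := fun h => hm2 (Finset.mem_filter.2 ⟨h, rfl, rfl, rfl⟩)
    rw [MvPolynomial.notMem_support_iff.1 h3, zero_mul]

/-! ### Multiplication by `h_d (x^k)` -/

lemma sum_let6 (d : ℕ) (g : ℕ → ℕ → ℕ → ℕ → ℕ → ℤ) :
    ∑ v ∈ piAntidiag (univ : Finset (Fin 6)) d, g (v 3) (v 4) (v 5) (v 1) (v 2) =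
    ∑ a ∈ range (d + 1), ∑ b ∈ range (d - a + 1), ∑ c ∈ range (d - a - b + 1),
      ∑ i ∈ range (d - a - b - c + 1), ∑ j ∈ range (d - a - b - c - i + 1), g a b c i j := by
  simp only [Finset.sum_sigma']
  refine Finset.sum_bij'
    (fun v _ => ⟨v 3, ⟨v 4, ⟨v 5, ⟨v 1, v 2⟩⟩⟩⟩)
    (fun p _ => ![d - p.1 - p.2.1 - p.2.2.1 - p.2.2.2.1 - p.2.2.2.2, p.2.2.2.1, p.2.2.2.2, p.1,
      p.2.1, p.2.2.1]) ?_ ?_ ?_ ?_ ?_
  · intro v hv
    rw [mem_piAntidiag] at hv
    have h1 := hv.1
    rw [Fin.sum_univ_six] at h1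
    simp only [Finset.mem_sigma, Finset.mem_range]
    refine ⟨by omega, by omega, by omega, by omega, by omega⟩
  · rintro ⟨a, b, c, i, j⟩ hp
    simp only [Finset.mem_sigma, Finset.mem_range] at hp
    rw [mem_piAntidiag]
    refine ⟨?_, fun i _ => Finset.mem_univ i⟩
    rw [Fin.sum_univ_six]
    simp only [Matrix.cons_val_zero, Matrix.cons_val_one, Matrix.cons_val]
    omega
  · intro v hv
    rw [mem_piAntidiag] at hv
    have h1 := hv.1
    rw [Fin.sum_univ_six] at h1
    funext i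
    fin_cases i
    · simp only [Fin.zero_eta, Matrix.cons_val_zero]
      omega
    all_goals rfl
  · rintro ⟨a, b, c, i, j⟩ _
    rfl
  · intro v _
    rfl

lemma row_monomial_mul (m : Fin 6 →₀ ℕ) (r : ℤ) (P : MvPolynomial (Fin 6) ℤ) (x y z : ℕ) :
    row w S (monomial m r * P) x y z = if m 3 ≤ x ∧ m 4 ≤ y ∧ m 5 ≤ z then
      r * 2 ^ (w * (m 1 + S * m 2)) * row w S P (x - m 3) (y - m 4) (z - m 5) else 0 := by
  rw [row, map_mul, phi_monomial, coeff_monomial_mul']
  have h1 : fs ![m 3, m 4, m 5] ≤ fs ![x, y, z] ↔ m 3 ≤ x ∧ m 4 ≤ y ∧ m 5 ≤ z := by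
    constructor
    · intro h
      exact ⟨h 0, h 1, h 2⟩
    · rintro ⟨h2, h3, h4⟩ i
      fin_cases i
      · exact h2
      · exact h3
      · exact h4
  refine if_congr h1 ?_ rfl
  have h2 : fs ![x, y, z] - fs ![m 3, m 4, m 5] = fs ![x - m 3, y - m 4, z - m 5] := by
    ext i
    fin_cases i <;> rfl
  rw [h2]
  rfl

lemma mul_le_iff_lt_div {k a x : ℕ} (hk : 0 < k) : k * a ≤ x ↔ a < x / k + 1 := by
  rw [Nat.lt_succ_iff, Nat.le_div_iff_mul_le hk, mul_comm]

lemma sum_range_cut (f : ℕ → ℤ) {k x d : ℕ} (hk : 0 < k) :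
    ∑ a ∈ range (d + 1), (if k * a ≤ x then f a else 0) =
      ∑ a ∈ range (min (x / k) d + 1), f a := by
  rw [← Finset.sum_filter]
  congr 1
  ext a
  simp only [Finset.mem_filter, Finset.mem_range]
  rw [mul_le_iff_lt_div hk]
  omega

/-- `h_r (1, X^k, Y^k)` -/
def hZ (w S k r : ℕ) : ℤ :=
  ∑ i ∈ range (r + 1), ∑ j ∈ range (r - i + 1), 2 ^ (w * (k * (i + S * j)))

/-- **The rows of a product with `h_d (x^k)`.** -/
theorem row_hk_mul (d k : ℕ) (hk : 0 < k) (P : MvPolynomial (Fin 6) ℤ) (x y z : ℕ) :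
    row w S (H605.hk 6 d k * P) x y z =
      ∑ a ∈ range (min (x / k) d + 1), ∑ b ∈ range (min (y / k) (d - a) + 1),
        ∑ c ∈ range (min (z / k) (d - a - b) + 1),
          hZ w S k (d - a - b - c) * row w S P (x - k * a) (y - k * b) (z - k * c) := by
  classical
  have h1 : row w S (H605.hk 6 d k * P) x y z =
      ∑ v ∈ piAntidiag (univ : Finset (Fin 6)) d,
        (if k * v 3 ≤ x then (if k * v 4 ≤ y then (if k * v 5 ≤ z then
          2 ^ (w * (k * (v 1 + S * v 2))) *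
            row w S P (x - k * v 3) (y - k * v 4) (z - k * v 5) else 0) else 0) else 0) := by
    rw [H605.hk, Finset.sum_mul, row_sum, ← Finset.sum_coe_sort (piAntidiag univ d)]
    refine Finset.sum_congr rfl fun v _ => ?_
    rw [monomial_pow, one_pow, row_monomial_mul, ← ite_and, ← ite_and]
    refine if_congr and_assoc.symm ?_ rfl
    rw [one_mul]
    congr 2
    change w * (k * v.1 1 + S * (k * v.1 2)) = _
    ring
  rw [h1, sum_let6 d (fun a b c i j => (if k * a ≤ x then (if k * b ≤ y then (if k * c ≤ z then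
          2 ^ (w * (k * (i + S * j))) *
            row w S P (x - k * a) (y - k * b) (z - k * c) else 0) else 0) else 0))]
  rw [← sum_range_cut _ hk]
  refine Finset.sum_congr rfl fun a _ => ?_
  split_ifs with ha
  · rw [← sum_range_cut _ hk]
    refine Finset.sum_congr rfl fun b _ => ?_
    split_ifs with hb
    · rw [← sum_range_cut _ hk]
      refine Finset.sum_congr rfl fun c _ => ?_
      split_ifs with hc
      · rw [hZ, Finset.sum_mul]
        refine Finset.sum_congr rfl fun i _ => ?_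
        rw [Finset.sum_mul]
      · simp
    · simp
  · simp

end Vale.Agent.P181.H605
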