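import Vale.Agent.P181.H605.Row

set_option autoImplicit false

/-!
# P181: the rows of the antisymmetric generating polynomial are antisymmetric
-/

namespace Vale.Agent.P181.H605

open Finset MvPolynomial

variable (w S : ℕ)

lemma phi_rename (σ : Equiv.Perm (Fin 6)) (τ : Equiv.Perm (Fin 3)) (h0 : σ 0 = 0) (h1 : σ 1 = 1)
    (h2 : σ 2 = 2) (h3 : ∀ i : Fin 3, σ (Fin.natAdd 3 i) = Fin.natAdd 3 (τ i))
    (P : MvPolynomial (Fin 6) ℤ) : phi w S (rename σ P) = rename τ (phi w S P) := by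
  have key : (phi w S).comp (rename σ : MvPolynomial (Fin 6) ℤ →ₐ[ℤ] MvPolynomial (Fin 6) ℤ).toRingHom =
      (rename τ : MvPolynomial (Fin 3) ℤ →ₐ[ℤ] MvPolynomial (Fin 3) ℤ).toRingHom.comp (phi w S) := by
    have hX : ∀ i : Fin 3, ![(1 : MvPolynomial (Fin 3) ℤ), C (2 ^ w), C (2 ^ (w * S)), X 0, X 1, X 2]
        (Fin.natAdd 3 i) = X i := by
      intro i
      fin_cases i <;> rfl
    apply MvPolynomial.ringHom_ext
    · intro r
      simp
    · intro i
      change phi w S (rename σ (X i)) = rename τ (phi w S (X i))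
      rw [rename_X, phi, coe_eval₂Hom, eval₂_X, eval₂_X]
      have hi : i = 0 ∨ i = 1 ∨ i = 2 ∨ ∃ j : Fin 3, i = Fin.natAdd 3 j := by
        fin_cases i
        · exact Or.inl rfl
        · exact Or.inr (Or.inl rfl)
        · exact Or.inr (Or.inr (Or.inl rfl))
        · exact Or.inr (Or.inr (Or.inr ⟨0, rfl⟩))
        · exact Or.inr (Or.inr (Or.inr ⟨1, rfl⟩))
        · exact Or.inr (Or.inr (Or.inr ⟨2, rfl⟩))
      rcases hi with rfl | rfl | rfl | ⟨j, rfl⟩
      · rw [h0]
        change (1 : MvPolynomial (Fin 3) ℤ) = rename τ 1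
        rw [map_one]
      · rw [h1]
        change (C (2 ^ w) : MvPolynomial (Fin 3) ℤ) = rename τ (C (2 ^ w))
        rw [rename_C]
      · rw [h2]
        change (C (2 ^ (w * S)) : MvPolynomial (Fin 3) ℤ) = rename τ (C (2 ^ (w * S)))
        rw [rename_C]
      · rw [h3, hX, hX, rename_X]
  exact RingHom.congr_fun key P

lemma coeff_rename_fs3 (τ : Equiv.Perm (Fin 3)) (Q : MvPolynomial (Fin 3) ℤ) (v : Fin 3 → ℕ) :
    coeff (fs v) (rename τ Q) = coeff (fs (fun i => v (τ i))) Q := by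
  have h1 : Finsupp.mapDomain τ (fs (fun i => v (τ i))) = fs v := by
    ext i
    obtain ⟨j, rfl⟩ := τ.surjective i
    rw [Finsupp.mapDomain_apply τ.injective]
    rfl
  rw [← h1, coeff_rename_mapDomain τ τ.injective]

lemma row_Fgen_swap (N a : ℕ) (σ : Equiv.Perm (Fin 6)) (τ : Equiv.Perm (Fin 3)) (h0 : σ 0 = 0)
    (h1 : σ 1 = 1) (h2 : σ 2 = 2) (h3 : ∀ i : Fin 3, σ (Fin.natAdd 3 i) = Fin.natAdd 3 (τ i))
    (hs : Equiv.Perm.sign σ = -1) (v : Fin 3 → ℕ) :
    coeff (fs (fun i => v (τ i))) (phi w S (Fgen 6 N a)) =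
      - coeff (fs v) (phi w S (Fgen 6 N a)) := by
  rw [← coeff_rename_fs3, ← phi_rename w S σ τ h0 h1 h2 h3, Fgen_antisymm, hs, map_mul,
    map_intCast, ← map_intCast (C : ℤ →+* MvPolynomial (Fin 3) ℤ), coeff_C_mul]
  simp

/-- The rows of the antisymmetric generating polynomial. -/
noncomputable def G (N a x y z : ℕ) : ℤ := row w S (Fgen 6 N a) x y z

lemma G_swap1 (N a x y z : ℕ) : G w S N a y x z = - G w S N a x y z := by
  have h := row_Fgen_swap w S N a (Equiv.swap 3 4) (Equiv.swap 0 1) (by decide) (by decide)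
    (by decide) (by decide) (Equiv.Perm.sign_swap (by decide)) ![x, y, z]
  have h1 : (fun i => ![x, y, z] ((Equiv.swap (0 : Fin 3) 1) i)) = ![y, x, z] := by
    funext i
    fin_cases i <;> rfl
  rw [h1] at h
  exact h

lemma G_swap2 (N a x y z : ℕ) : G w S N a x z y = - G w S N a x y z := by
  have h := row_Fgen_swap w S N a (Equiv.swap 4 5) (Equiv.swap 1 2) (by decide) (by decide)
    (by decide) (by decide) (Equiv.Perm.sign_swap (by decide)) ![x, y, z]
  have h1 : (fun i => ![x, y, z] ((Equiv.swap (1 : Fin 3) 2) i)) = ![x, z, y] := by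
    funext i
    fin_cases i <;> rfl
  rw [h1] at h
  exact h

lemma G_eq1 (N a x z : ℕ) : G w S N a x x z = 0 := by
  have := G_swap1 w S N a x x z
  omega

lemma G_eq2 (N a x y : ℕ) : G w S N a x y y = 0 := by
  have := G_swap2 w S N a x y y
  omega

lemma G_eq3 (N a x y : ℕ) : G w S N a x y x = 0 := by
  rw [G_swap2, G_eq1, neg_zero]

/-- **The recursion for the rows.** -/
theorem G_rec (N a x y z : ℕ) : (N : ℤ) * G w S N a x y z =
    ∑ k ∈ range N, ∑ i ∈ range (min (x / (k + 1)) a + 1),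
      ∑ j ∈ range (min (y / (k + 1)) (a - i) + 1),
        ∑ l ∈ range (min (z / (k + 1)) (a - i - j) + 1),
          hZ w S (k + 1) (a - i - j - l) *
            G w S (N - (k + 1)) a (x - (k + 1) * i) (y - (k + 1) * j) (z - (k + 1) * l) := by
  rw [G, ← row_natCast_mul, Fgen_rec, row_sum]
  refine Finset.sum_congr rfl fun k _ => ?_
  rw [row_hk_mul w S a (k + 1) (Nat.succ_pos k)]
  rfl

/-- The recursion in the scaled form. -/
theorem G_rec' (N a x y z : ℕ) (hN : 0 < N) : ((N.factorial : ℤ)) * G w S N a x y z =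
    ∑ k ∈ range N, ((N - 1).descFactorial k : ℤ) * ∑ i ∈ range (min (x / (k + 1)) a + 1),
      ∑ j ∈ range (min (y / (k + 1)) (a - i) + 1),
        ∑ l ∈ range (min (z / (k + 1)) (a - i - j) + 1),
          hZ w S (k + 1) (a - i - j - l) * (((N - (k + 1)).factorial : ℤ) *
            G w S (N - (k + 1)) a (x - (k + 1) * i) (y - (k + 1) * j) (z - (k + 1) * l)) := by
  obtain ⟨M, rfl⟩ : ∃ M, N = M + 1 := ⟨N - 1, by omega⟩
  rw [Nat.factorial_succ, Nat.cast_mul, mul_comm ((M + 1 : ℕ) : ℤ), mul_assoc, G_rec,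
    Finset.mul_sum]
  refine Finset.sum_congr rfl fun k hk => ?_
  have hk' : k ≤ M := Nat.lt_succ_iff.1 (Finset.mem_range.1 hk)
  have h1 : M + 1 - (k + 1) = M - k := by omega
  have h2 : (M.factorial : ℤ) = (M.descFactorial k : ℤ) * ((M - k).factorial : ℤ) := by
    rw [← Nat.factorial_mul_descFactorial hk']
    push_cast
    ring
  rw [Nat.add_sub_cancel, h1, h2, mul_assoc]
  congr 1
  simp only [Finset.mul_sum]
  refine Finset.sum_congr rfl fun i _ => Finset.sum_congr rfl fun j _ =>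
    Finset.sum_congr rfl fun l _ => ?_
  ring

end Vale.Agent.P181.H605
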